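import Vale.Agent.P048.Defs

/-!
Independence numbers of vertex sets, separations, and the structure of extremal sets.
-/

namespace Vale.Agent.P048

open Finset

variable {V : Type*} {G : SimpleGraph V}

open scoped Classical in
/-- The largest size of an independent set inside `S`. -/
noncomputable def aNum (G : SimpleGraph V) (S : Finset V) : ℕ :=
  (S.powerset.filter (fun I : Finset V => G.IsIndepSet (I : Set V))).sup Finset.card

lemma card_le_aNum {S I : Finset V} (h : I ⊆ S) (hi : G.IsIndepSet (I : Set V)) :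
    I.card ≤ aNum G S := by
  classical
  unfold aNum
  exact Finset.le_sup (f := Finset.card)
    (Finset.mem_filter.2 ⟨Finset.mem_powerset.2 h, hi⟩)

lemma indBound_aNum (S : Finset V) : IndBound G (S : Set V) (aNum G S) :=
  fun _ hI hind => card_le_aNum (by exact_mod_cast hI) hind

lemma aNum_le {S : Finset V} {a : ℕ} (h : IndBound G (S : Set V) a) : aNum G S ≤ a := by
  classical
  unfold aNum
  refine Finset.sup_le fun I hI => ?_
  simp only [Finset.mem_filter, Finset.mem_powerset] at hI
  exact h I (by exact_mod_cast hI.1) hI.2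

lemma exists_max_indep (S : Finset V) :
    ∃ I : Finset V, I ⊆ S ∧ G.IsIndepSet (I : Set V) ∧ I.card = aNum G S := by
  classical
  obtain ⟨I, hI, he⟩ := Finset.exists_mem_eq_sup
    (S.powerset.filter (fun I : Finset V => G.IsIndepSet (I : Set V)))
    ⟨∅, by simp [SimpleGraph.isIndepSet_iff]⟩ Finset.card
  simp only [Finset.mem_filter, Finset.mem_powerset] at hI
  exact ⟨I, hI.1, hI.2, he.symm⟩

lemma aNum_mono {S T : Finset V} (h : T ⊆ S) : aNum G T ≤ aNum G S :=
  aNum_le ((indBound_aNum S).mono (by exact_mod_cast h) le_rfl)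

lemma aNum_pos {S : Finset V} (h : S.Nonempty) : 1 ≤ aNum G S := by
  obtain ⟨v, hv⟩ := h
  simpa using card_le_aNum (G := G) (S := S) (I := {v}) (by simpa using hv)
    (by simp [SimpleGraph.isIndepSet_iff, Set.Pairwise])

/-- No edges between `A` and `B`. -/
def AntiCompl (G : SimpleGraph V) (A B : Finset V) : Prop :=
  ∀ a ∈ A, ∀ b ∈ B, ¬ G.Adj a b

lemma indep_union [DecidableEq V] {I J : Finset V} (hI : G.IsIndepSet (I : Set V))
    (hJ : G.IsIndepSet (J : Set V)) (hac : AntiCompl G I J) :
    G.IsIndepSet ((I ∪ J : Finset V) : Set V) := by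
  intro x hx y hy hne
  simp at hx hy
  rcases hx with hx | hx <;> rcases hy with hy | hy
  · exact hI hx hy hne
  · exact hac x hx y hy
  · exact fun h => hac y hy x hx h.symm
  · exact hJ hx hy hne

lemma aNum_add_le {S A B : Finset V} (hA : A ⊆ S) (hB : B ⊆ S) (hd : Disjoint A B)
    (hac : AntiCompl G A B) : aNum G A + aNum G B ≤ aNum G S := by
  classical
  obtain ⟨I, hI, hIi, hIc⟩ := exists_max_indep (G := G) A
  obtain ⟨J, hJ, hJi, hJc⟩ := exists_max_indep (G := G) B
  have h1 : Disjoint I J := Disjoint.mono hI hJ hd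
  rw [← hIc, ← hJc, ← Finset.card_union_of_disjoint h1]
  exact card_le_aNum (Finset.union_subset (hI.trans hA) (hJ.trans hB))
    (indep_union hIi hJi fun a ha b hb => hac a (hI ha) b (hJ hb))

lemma eq_clique_of_aNum_le_one {S : Finset V} (h : aNum G S ≤ 1) :
    G.IsClique (S : Set V) := by
  classical
  intro x hx y hy hne
  by_contra hadj
  have := card_le_aNum (G := G) (S := S) (I := {x, y}) (by
      intro z hz; simp at hz; rcases hz with rfl | rfl <;> assumption) (by
      intro u hu w hw hne'
      simp at hu hw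
      rcases hu with rfl | rfl <;> rcases hw with rfl | rfl
      · exact absurd rfl hne'
      · exact hadj
      · exact fun h' => hadj h'.symm
      · exact absurd rfl hne')
  rw [Finset.card_pair hne] at this
  omega

/-- Restrict a path at an arbitrary intermediate index. -/
lemma pathLen_prefix {S : Set V} {p : ℕ → V} {n i : ℕ} (hi : i ≤ n)
    (hinj : ∀ i ≤ n, ∀ j ≤ n, p i = p j → i = j) (hadj : ∀ i < n, G.Adj (p i) (p (i + 1)))
    (hmem : ∀ j ≤ i, p j ∈ S) : PathLen G S (p 0) (p i) i :=
  ⟨p, rfl, rfl, fun a ha b hb => hinj a (ha.trans hi) b (hb.trans hi),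
    fun a ha => hadj a (by omega), hmem⟩

/-- Extend a path by one edge, or cut it short. -/
lemma pathLen_snoc {S : Set V} {u v w : V} {n : ℕ} (h : PathLen G S u v n) (hw : w ∈ S)
    (ha : G.Adj v w) : ∃ n' ≤ n + 1, PathLen G S u w n' := by
  obtain ⟨p, p0, pn, pi, padj, pm⟩ := h
  by_cases hex : ∃ i ≤ n, p i = w
  · obtain ⟨i, hi, hiw⟩ := hex
    refine ⟨i, by omega, ?_⟩
    have := pathLen_prefix (G := G) (S := S) hi pi padj (fun j hj => pm j (by omega))
    rwa [p0, hiw] at this
  · push Not at hex
    refine ⟨n + 1, le_rfl, fun i => if i ≤ n then p i else w, by simp [p0], by simp, ?_, ?_, ?_⟩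
    · intro i hi j hj hij
      by_cases h1 : i ≤ n <;> by_cases h2 : j ≤ n <;> simp [h1, h2] at hij
      · exact pi i h1 j h2 hij
      · exact absurd hij (hex i h1)
      · exact absurd hij.symm (hex j h2)
      · omega
    · intro i hi
      by_cases h1 : i + 1 ≤ n
      · have h1' : i ≤ n := by omega
        simpa [h1, h1'] using padj i (by omega)
      · have : i = n := by omega
        subst this
        simpa [pn] using ha
    · intro i hi
      by_cases h1 : i ≤ n
      · simpa [h1] using pm i h1
      · simpa [h1] using hw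

lemma Conn.exists_separation {S : Finset V} (h : ¬ Conn G (S : Set V)) :
    ∃ A B : Finset V, A ⊆ S ∧ B ⊆ S ∧ A.Nonempty ∧ B.Nonempty ∧ Disjoint A B ∧
      AntiCompl G A B ∧ A.card + B.card = S.card ∧ ∀ x ∈ S, x ∈ A ∨ x ∈ B := by
  classical
  unfold Conn at h
  push Not at h
  obtain ⟨u, hu, v, hv, huv⟩ := h
  refine ⟨S.filter (fun x => ∃ n, PathLen G (S : Set V) u x n),
    S.filter (fun x => ¬ ∃ n, PathLen G (S : Set V) u x n),
    Finset.filter_subset _ _, Finset.filter_subset _ _,
    ⟨u, Finset.mem_filter.2 ⟨hu, 0, pathLen_refl hu⟩⟩,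
    ⟨v, Finset.mem_filter.2 ⟨hv, fun ⟨n, hn⟩ => huv n hn⟩⟩,
    Finset.disjoint_filter_filter_not _ _ _, ?_,
    Finset.card_filter_add_card_filter_not _, ?_⟩
  · intro a ha b hb hab
    simp only [Finset.mem_filter] at ha hb
    obtain ⟨n, hn⟩ := ha.2
    obtain ⟨n', -, hn'⟩ := pathLen_snoc hn (w := b) hb.1 hab
    exact hb.2 ⟨n', hn'⟩
  · intro x hx
    by_cases h : ∃ n, PathLen G (S : Set V) u x n
    · exact Or.inl (Finset.mem_filter.2 ⟨hx, h⟩)
    · exact Or.inr (Finset.mem_filter.2 ⟨hx, h⟩)

variable [DecidableEq V]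

/-- `S` is critical for coefficient `c`. -/
structure Crit (G : SimpleGraph V) (S : Finset V) (c : ℕ) : Prop where
  card_eq : S.card = c * aNum G S + 1
  sub : ∀ T : Finset V, T ⊆ S → aNum G T < aNum G S → T.card ≤ c * aNum G T

lemma Crit.conn {S : Finset V} {c : ℕ} (h : Crit G S c) : Conn G (S : Set V) := by
  by_contra hn
  obtain ⟨A, B, hA, hB, hAne, hBne, hd, hac, hcard, -⟩ := Conn.exists_separation hn
  have h1 := aNum_add_le hA hB hd hac
  have hpA := aNum_pos (G := G) hAne
  have hpB := aNum_pos (G := G) hBne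
  have h2 := h.sub A hA (by omega)
  have h3 := h.sub B hB (by omega)
  have h4 := h.card_eq
  have h5 := Nat.mul_le_mul_left c h1
  rw [Nat.mul_add] at h5
  omega

lemma Crit.conn_erase {S : Finset V} {c : ℕ} (h : Crit G S c) {v : V} (hv : v ∈ S) :
    Conn G ((S : Set V) \ {v}) := by
  rw [← Finset.coe_erase]
  by_contra hn
  obtain ⟨A, B, hA, hB, hAne, hBne, hd, hac, hcard, -⟩ := Conn.exists_separation hn
  have hAS : A ⊆ S := hA.trans (Finset.erase_subset _ _)
  have hBS : B ⊆ S := hB.trans (Finset.erase_subset _ _)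
  have hvA : v ∉ A := fun h' => by simpa using hA h'
  have hvB : v ∉ B := fun h' => by simpa using hB h'
  have h1 := aNum_add_le hAS hBS hd hac
  have hpA := aNum_pos (G := G) hAne
  have hpB := aNum_pos (G := G) hBne
  have h2 := h.sub A hAS (by omega)
  have h3 := h.sub B hBS (by omega)
  have h4 := h.card_eq
  rw [Finset.card_erase_of_mem hv] at hcard
  have h5 := Nat.mul_le_mul_left c h1
  rw [Nat.mul_add] at h5
  have hA0 : A.card = c * aNum G A := by omega
  have hB0 : B.card = c * aNum G B := by omega
  have big : ∀ X : Finset V, X ⊆ S → v ∉ X → X.card = c * aNum G X → aNum G X < aNum G S →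
      ∃ I : Finset V, I ⊆ X ∧ G.IsIndepSet (I : Set V) ∧ (∀ x ∈ I, ¬ G.Adj v x) ∧
        aNum G X ≤ I.card := by
    intro X hX hvX hXc hlt
    have hsub : insert v X ⊆ S := Finset.insert_subset hv hX
    have hgt : aNum G X < aNum G (insert v X) := by
      by_contra hle
      have heq : aNum G (insert v X) = aNum G X :=
        le_antisymm (by omega) (aNum_mono (Finset.subset_insert v X))
      have := h.sub _ hsub (by omega)
      rw [heq, Finset.card_insert_of_notMem hvX] at this
      omega
    obtain ⟨I, hI, hIi, hIc⟩ := exists_max_indep (G := G) (insert v X)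
    by_cases hvI : v ∈ I
    · refine ⟨I.erase v, ?_, fun x hx y hy hne => ?_, ?_, ?_⟩
      · intro x hx
        simp at hx
        have := hI hx.2
        simp at this
        tauto
      · simp at hx hy
        exact hIi hx.1 hy.1 hne
      · intro x hx hadj
        simp at hx
        exact hIi hvI hx.2 (Ne.symm hx.1) hadj
      · rw [Finset.card_erase_of_mem hvI]; omega
    · have hIX : I ⊆ X := fun x hx => by
        have := hI hx
        simp at this
        rcases this with rfl | this
        · exact absurd hx hvI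
        · exact this
      have := card_le_aNum hIX hIi
      omega
  obtain ⟨I, hI, hIi, hIv, hIc⟩ := big A hAS hvA hA0 (by omega)
  obtain ⟨J, hJ, hJi, hJv, hJc⟩ := big B hBS hvB hB0 (by omega)
  have hu := indep_union hIi hJi (fun a ha b hb => hac a (hI ha) b (hJ hb))
  have hvIJ : v ∉ I ∪ J := by
    simp only [Finset.mem_union, not_or]
    exact ⟨fun h' => hvA (hI h'), fun h' => hvB (hJ h')⟩
  have hall := card_le_aNum (G := G) (S := S) (I := insert v (I ∪ J))
    (Finset.insert_subset hv (Finset.union_subset (hI.trans hAS) (hJ.trans hBS))) (by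
      intro x hx y hy hne
      simp at hx hy
      rcases hx with rfl | hx <;> rcases hy with rfl | hy
      · exact absurd rfl hne
      · rcases hy with hy | hy
        · exact hIv y hy
        · exact hJv y hy
      · rcases hx with hx | hx
        · exact fun h' => hIv x hx h'.symm
        · exact fun h' => hJv x hx h'.symm
      · exact hu (by simpa using hx) (by simpa using hy) hne)
  rw [Finset.card_insert_of_notMem hvIJ,
    Finset.card_union_of_disjoint (Disjoint.mono hI hJ hd)] at hall
  have h6 : aNum G S ≥ aNum G A + aNum G B + 1 := by omega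
  have h7 := Nat.mul_le_mul_left c h6
  rw [Nat.mul_add, Nat.mul_add, Nat.mul_one] at h7
  rcases Nat.eq_zero_or_pos c with rfl | hc
  · simp at hA0
    simp [hA0] at hAne
  · omega

lemma Crit.minDeg {S : Finset V} {c : ℕ} (h : Crit G S c) : MinDeg G S c := by
  classical
  intro v hv
  refine ⟨S.filter (G.Adj v), Finset.filter_subset _ _, ?_, fun w hw => (Finset.mem_filter.1 hw).2⟩
  set T := S.filter (fun w => w ≠ v ∧ ¬ G.Adj v w) with hT
  have hlt : aNum G T + 1 ≤ aNum G S := by
    obtain ⟨I, hI, hIi, hIc⟩ := exists_max_indep (G := G) T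
    have hvI : v ∉ I := fun h' => by
      have := hI h'
      simp [hT] at this
    rw [← hIc, ← Finset.card_insert_of_notMem hvI]
    refine card_le_aNum (Finset.insert_subset hv (hI.trans (Finset.filter_subset _ _))) ?_
    intro x hx y hy hne
    simp at hx hy
    rcases hx with rfl | hx <;> rcases hy with rfl | hy
    · exact absurd rfl hne
    · have := hI hy; simp [hT] at this; exact this.2.2
    · have := hI hx; simp [hT] at this; exact fun h' => this.2.2 h'.symm
    · exact hIi hx hy hne
  have h2 := h.sub T (Finset.filter_subset _ _) (by omega)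
  have h3 := Nat.mul_le_mul_left c hlt
  rw [Nat.mul_add, Nat.mul_one] at h3
  have hsplit : S ⊆ (S.filter (G.Adj v)) ∪ T ∪ {v} := by
    intro w hw
    simp [hT]
    tauto
  have h4 := (Finset.card_le_card hsplit).trans (Finset.card_union_le _ _)
  have h5 := Finset.card_union_le (S.filter (G.Adj v)) T
  have h6 := h.card_eq
  simp at h4
  omega

lemma Crit.twoConn {S : Finset V} {c : ℕ} (h : Crit G S c) (h3 : 3 ≤ S.card) : TwoConn G S :=
  ⟨h3, h.conn, fun _ hv => h.conn_erase hv⟩

end Vale.Agent.P048
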