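import Mathlib

/-!
Paths and cycles given by functions, independence bounds relative to a vertex set.
-/

namespace Vale.Agent.P048

open Finset

variable {V : Type*} {G : SimpleGraph V}

/-- There is a path with exactly `n` edges from `u` to `v` all of whose vertices lie in `S`. -/
def PathLen (G : SimpleGraph V) (S : Set V) (u v : V) (n : ℕ) : Prop :=
  ∃ p : ℕ → V, p 0 = u ∧ p n = v ∧ (∀ i ≤ n, ∀ j ≤ n, p i = p j → i = j) ∧
    (∀ i < n, G.Adj (p i) (p (i + 1))) ∧ (∀ i ≤ n, p i ∈ S)

/-- There is a cycle with exactly `n` vertices. -/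
def HasCyc (G : SimpleGraph V) (n : ℕ) : Prop :=
  3 ≤ n ∧ ∃ f : ℕ → V, (∀ i < n, ∀ j < n, f i = f j → i = j) ∧
    (∀ i, i + 1 < n → G.Adj (f i) (f (i + 1))) ∧ G.Adj (f (n - 1)) (f 0)

/-- Every independent set inside `S` has at most `a` vertices. -/
def IndBound (G : SimpleGraph V) (S : Set V) (a : ℕ) : Prop :=
  ∀ I : Finset V, ↑I ⊆ S → G.IsIndepSet (I : Set V) → I.card ≤ a

/-- Any two vertices of `S` are joined by a path inside `S`. -/
def Conn (G : SimpleGraph V) (S : Set V) : Prop :=
  ∀ u ∈ S, ∀ v ∈ S, ∃ n, PathLen G S u v n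

lemma PathLen.mono {S T : Set V} {u v : V} {n : ℕ} (h : PathLen G S u v n) (hST : S ⊆ T) :
    PathLen G T u v n := by
  obtain ⟨p, h0, hn, hi, ha, hm⟩ := h
  exact ⟨p, h0, hn, hi, ha, fun i hi' => hST (hm i hi')⟩

lemma PathLen.left_mem {S : Set V} {u v : V} {n : ℕ} (h : PathLen G S u v n) : u ∈ S := by
  obtain ⟨p, h0, -, -, -, hm⟩ := h
  exact h0 ▸ hm 0 (Nat.zero_le n)

lemma PathLen.right_mem {S : Set V} {u v : V} {n : ℕ} (h : PathLen G S u v n) : v ∈ S := by
  obtain ⟨p, -, hn, -, -, hm⟩ := h
  exact hn ▸ hm n le_rfl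

lemma pathLen_refl {S : Set V} {u : V} (hu : u ∈ S) : PathLen G S u u 0 :=
  ⟨fun _ => u, rfl, rfl, fun i hi j hj _ => by omega, fun i hi => absurd hi (Nat.not_lt_zero i),
    fun _ _ => hu⟩

lemma pathLen_edge {S : Set V} {u v : V} (hu : u ∈ S) (hv : v ∈ S) (h : G.Adj u v) :
    PathLen G S u v 1 := by
  refine ⟨fun i => if i = 0 then u else v, by simp, by simp, ?_, ?_, ?_⟩
  · intro i hi j hj hij
    interval_cases i <;> interval_cases j <;> simp_all
  · intro i hi
    interval_cases i
    simpa using h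
  · intro i hi
    interval_cases i <;> simp [hu, hv]

lemma pathLen_edge_pair {u v : V} (h : G.Adj u v) : PathLen G {u, v} u v 1 :=
  pathLen_edge (by simp) (by simp) h

lemma PathLen.reverse {S : Set V} {u v : V} {n : ℕ} (h : PathLen G S u v n) :
    PathLen G S v u n := by
  obtain ⟨p, h0, hn, hi, ha, hm⟩ := h
  refine ⟨fun i => p (n - i), by simpa using hn, by simpa using h0, ?_, ?_, ?_⟩
  · intro i hi' j hj' hij
    have := hi (n - i) (Nat.sub_le _ _) (n - j) (Nat.sub_le _ _) hij
    omega
  · intro i hi'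
    have e : n - i = (n - (i + 1)) + 1 := by omega
    have := ha (n - (i + 1)) (by omega)
    rw [← e] at this
    exact this.symm
  · intro i hi'
    exact hm _ (Nat.sub_le _ _)

lemma PathLen.append {S T : Set V} {u v w : V} {a b : ℕ} (h₁ : PathLen G S u v a)
    (h₂ : PathLen G T v w b) (hST : ∀ x ∈ S, x ∈ T → x = v) :
    PathLen G (S ∪ T) u w (a + b) := by
  obtain ⟨p, p0, pa, pi, padj, pm⟩ := h₁
  obtain ⟨q, q0, qb, qi, qadj, qm⟩ := h₂
  have cross : ∀ i ≤ a, ∀ j, a < j → j ≤ a + b → p i ≠ q (j - a) := by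
    intro i hi j hj hjb heq
    have h1 : p i = v := hST _ (pm i hi) (heq ▸ qm (j - a) (by omega))
    have h2 := qi (j - a) (by omega) 0 (Nat.zero_le b) (by rw [← heq, h1, q0])
    omega
  refine ⟨fun i => if i ≤ a then p i else q (i - a), by simp [p0], ?_, ?_, ?_, ?_⟩
  · by_cases hb : b = 0
    · subst hb
      simp [pa, ← q0, qb]
    · have h' : ¬ (a + b ≤ a) := by omega
      simp [h', qb]
  · intro i hi j hj hij
    by_cases h1 : i ≤ a <;> by_cases h2 : j ≤ a <;> simp [h1, h2] at hij
    · exact pi i h1 j h2 hij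
    · exact absurd hij (cross i h1 j (by omega) hj)
    · exact absurd hij.symm (cross j h2 i (by omega) hi)
    · have := qi (i - a) (by omega) (j - a) (by omega) hij
      omega
  · intro i hi
    by_cases h1 : i + 1 ≤ a
    · have h1' : i ≤ a := by omega
      simpa [h1, h1'] using padj i (by omega)
    · by_cases h2 : i ≤ a
      · have hia : i = a := by omega
        subst hia
        simp [pa, ← q0]
        exact qadj 0 (by omega)
      · have e : i + 1 - a = (i - a) + 1 := by omega
        simp [h1, h2, e]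
        exact qadj (i - a) (by omega)
  · intro i hi
    by_cases h1 : i ≤ a
    · simpa [h1] using Or.inl (pm i h1)
    · simpa [h1] using Or.inr (qm (i - a) (by omega))

lemma PathLen.append' {S T U : Set V} {u v w : V} {a b : ℕ} (h₁ : PathLen G S u v a)
    (h₂ : PathLen G T v w b) (hST : ∀ x ∈ S, x ∈ T → x = v) (hU : S ∪ T ⊆ U) :
    PathLen G U u w (a + b) :=
  (h₁.append h₂ hST).mono hU

/-- Two internally disjoint paths with common ends close up to a cycle. -/
lemma PathLen.close {S T : Set V} {u v : V} {a b : ℕ} (h₁ : PathLen G S u v a)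
    (h₂ : PathLen G T v u b) (ha : 1 ≤ a) (hb : 1 ≤ b) (hab : 3 ≤ a + b)
    (hST : ∀ x ∈ S, x ∈ T → x = u ∨ x = v) : HasCyc G (a + b) := by
  obtain ⟨p, p0, pa, pi, padj, pm⟩ := h₁
  obtain ⟨q, q0, qb, qi, qadj, qm⟩ := h₂
  have cross : ∀ i ≤ a, ∀ j, a < j → j < a + b → p i ≠ q (j - a) := by
    intro i hi j hj hjb heq
    rcases hST _ (pm i hi) (heq ▸ qm (j - a) (by omega)) with h | h
    · have := qi (j - a) (by omega) b le_rfl (by rw [← heq, h, qb]); omega
    · have := qi (j - a) (by omega) 0 (Nat.zero_le _) (by rw [← heq, h, q0]); omega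
  refine ⟨hab, fun i => if i ≤ a then p i else q (i - a), ?_, ?_, ?_⟩
  · intro i hi j hj hij
    by_cases h1 : i ≤ a <;> by_cases h2 : j ≤ a <;> simp [h1, h2] at hij
    · exact pi i h1 j h2 hij
    · exact absurd hij (cross i h1 j (by omega) hj)
    · exact absurd hij.symm (cross j h2 i (by omega) hi)
    · have := qi (i - a) (by omega) (j - a) (by omega) hij
      omega
  · intro i hi
    by_cases h1 : i + 1 ≤ a
    · have h1' : i ≤ a := by omega
      simpa [h1, h1'] using padj i (by omega)
    · by_cases h2 : i ≤ a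
      · have hia : i = a := by omega
        subst hia
        simp [pa, ← q0]
        exact qadj 0 (by omega)
      · have e : i + 1 - a = (i - a) + 1 := by omega
        simp [h1, h2, e]
        exact qadj (i - a) (by omega)
  · by_cases h : a + b - 1 ≤ a
    · have hb1 : b = 1 := by omega
      subst hb1
      simp [p0, pa]
      simpa [q0, qb] using qadj 0 (by omega)
    · simp [h, p0]
      have h3 := qadj (b - 1) (by omega)
      have e : b - 1 + 1 = b := by omega
      have e' : a + b - 1 - a = b - 1 := by omega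
      rw [e, qb] at h3
      rw [e']; exact h3

lemma PathLen.le_card [DecidableEq V] {S : Finset V} {u v : V} {n : ℕ}
    (h : PathLen G (S : Set V) u v n) : n + 1 ≤ S.card := by
  obtain ⟨p, -, -, hi, -, hm⟩ := h
  have : ((Finset.range (n + 1)).image p).card = n + 1 := by
    rw [Finset.card_image_of_injOn]
    · simp
    · intro i hi' j hj' hij
      simp at hi' hj'
      exact hi i (by omega) j (by omega) hij
  rw [← this]
  apply Finset.card_le_card
  intro x hx
  simp at hx
  obtain ⟨i, hi', rfl⟩ := hx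
  exact hm i (by omega)

lemma IndBound.mono {S T : Set V} {a b : ℕ} (h : IndBound G S a) (hTS : T ⊆ S) (hab : a ≤ b) :
    IndBound G T b :=
  fun I hI hind => le_trans (h I (hI.trans hTS) hind) hab

/-- An induced path (no chord between vertices at distance at least two) gives an independent
set. -/
lemma IndBound.induced_path [DecidableEq V] {S : Set V} {a n : ℕ} (h : IndBound G S a)
    {p : ℕ → V} (hinj : ∀ i ≤ n, ∀ j ≤ n, p i = p j → i = j) (hmem : ∀ i ≤ n, p i ∈ S)
    (hind : ∀ i ≤ n, ∀ j ≤ n, i + 2 ≤ j → ¬ G.Adj (p i) (p j)) : n + 1 ≤ 2 * a := by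
  have hcard : ((Finset.range (n / 2 + 1)).image (fun t => p (2 * t))).card = n / 2 + 1 := by
    rw [Finset.card_image_of_injOn]
    · simp
    · intro i hi j hj hij
      simp at hi hj
      have := hinj (2 * i) (by omega) (2 * j) (by omega) hij
      omega
  have := h ((Finset.range (n / 2 + 1)).image (fun t => p (2 * t))) ?_ ?_
  · omega
  · intro x hx
    simp at hx
    obtain ⟨i, hi, rfl⟩ := hx
    exact hmem _ (by omega)
  · intro x hx y hy hne
    simp at hx hy
    obtain ⟨i, hi, rfl⟩ := hx
    obtain ⟨j, hj, rfl⟩ := hy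
    rcases lt_trichotomy i j with hlt | rfl | hlt
    · exact hind _ (by omega) _ (by omega) (by omega)
    · exact absurd rfl hne
    · exact fun hadj => hind _ (by omega) _ (by omega) (by omega) hadj.symm

/-- The function form of a cycle gives a `SimpleGraph.Walk` cycle. -/
lemma HasCyc.exists_walk {n : ℕ} (h : HasCyc G n) :
    ∃ v : V, ∃ p : G.Walk v v, p.IsCycle ∧ p.length = n := by
  obtain ⟨hn, f, hinj, hadj, hlast⟩ := h
  have build : ∀ k, k < n → ∃ p : G.Walk (f 0) (f k), p.IsPath ∧ p.length = k ∧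
      (∀ x ∈ p.support, ∃ i ≤ k, f i = x) ∧ (∀ e ∈ p.edges, ∃ i < k, e = s(f i, f (i + 1))) := by
    intro k
    induction k with
    | zero =>
      intro _
      refine ⟨SimpleGraph.Walk.nil, by simp, by simp, ?_, by simp⟩
      intro x hx
      simp at hx
      exact ⟨0, le_rfl, hx.symm⟩
    | succ k ih =>
      intro hk
      obtain ⟨p, hp, hl, hs, he⟩ := ih (by omega)
      refine ⟨p.concat (hadj k hk), ?_, by simp [hl], ?_, ?_⟩
      · refine (SimpleGraph.Walk.concat_isPath_iff (p := p) (hadj k hk)).2 ⟨hp, ?_⟩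
        intro hmem
        obtain ⟨i, hi, hfi⟩ := hs _ hmem
        have := hinj i (by omega) (k + 1) hk hfi
        omega
      · intro x hx
        simp [SimpleGraph.Walk.support_concat] at hx
        rcases hx with hx | hx
        · obtain ⟨i, hi, hfi⟩ := hs x hx
          exact ⟨i, by omega, hfi⟩
        · exact ⟨k + 1, le_rfl, hx.symm⟩
      · intro e he'
        simp [SimpleGraph.Walk.edges_concat] at he'
        rcases he' with he' | he'
        · obtain ⟨i, hi, hei⟩ := he e he'
          exact ⟨i, by omega, hei⟩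
        · exact ⟨k, by omega, he'⟩
  obtain ⟨p, hp, hl, -, he⟩ := build (n - 1) (by omega)
  refine ⟨f (n - 1), SimpleGraph.Walk.cons hlast p, ?_, by simp [hl]; omega⟩
  rw [SimpleGraph.Walk.cons_isCycle_iff]
  refine ⟨hp, fun hmem => ?_⟩
  obtain ⟨i, hi, hei⟩ := he _ hmem
  rw [Sym2.eq_iff] at hei
  rcases hei with ⟨h1, h2⟩ | ⟨h1, h2⟩
  · have := hinj (n - 1) (by omega) i (by omega) h1
    omega
  · have h1' := hinj (n - 1) (by omega) (i + 1) (by omega) h1
    have h2' := hinj 0 (by omega) i (by omega) h2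
    omega

end Vale.Agent.P048
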