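import Vale.Agent.P048.Lists

/-!
A connected set with independence number `a` has radius at most `a`.
-/

namespace Vale.Agent.P048

open Finset

variable {V : Type*} [DecidableEq V] {G : SimpleGraph V}

/-- A rooted spanning tree of `J` given by parents and ranks. -/
structure PTree (G : SimpleGraph V) (J : Finset V) (root : V) (par : V → V) (rk : V → ℕ) :
    Prop where
  root_mem : root ∈ J
  par_mem : ∀ v ∈ J, v ≠ root → par v ∈ J
  par_adj : ∀ v ∈ J, v ≠ root → G.Adj v (par v)
  par_rk : ∀ v ∈ J, v ≠ root → rk (par v) < rk v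

/-- A vertex of `J` which is nobody's parent. -/
def IsLeaf (J : Finset V) (root : V) (par : V → V) (v : V) : Prop :=
  v ∈ J ∧ ∀ w ∈ J, w ≠ root → par w ≠ v

lemma PTree.radius : ∀ (n : ℕ) {J : Finset V} {root : V} {par : V → V} {rk : V → ℕ},
    J.card = n → PTree G J root par rk →
    ∃ c ∈ J, ∀ v ∈ J, ∃ L, Pth G (J : Set V) c v L ∧ L.length ≤ J.card / 2 + 1 := by
  classical
  intro n
  induction n using Nat.strong_induction_on with
  | _ n ih =>
  intro J root par rk hn hT
  obtain ⟨l, hl, hlmax⟩ := J.exists_max_image rk ⟨root, hT.root_mem⟩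
  have hleaf : IsLeaf J root par l := ⟨hl, fun w hw hwr e => by
    have := hT.par_rk w hw hwr; have := hlmax w hw; rw [e] at *; omega⟩
  by_cases h2 : ∃ l', l' ≠ l ∧ IsLeaf J root par l'
  · obtain ⟨l', hne, hleaf'⟩ := h2
    have hroot : ∀ x, IsLeaf J root par x → 2 ≤ J.card → x ≠ root := by
      intro x hx h2 e
      subst e
      obtain ⟨y, hy, hyx⟩ := J.exists_mem_ne h2 x
      obtain ⟨z, hz, hzmin⟩ := (J.erase x).exists_min_image rk ⟨y, by simp [hy, hyx]⟩
      simp at hz
      have h1 := hT.par_rk z hz.2 hz.1
      by_cases h3 : par z = x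
      · exact hx.2 z hz.2 hz.1 h3
      · have := hzmin (par z) (by simp [h3, hT.par_mem z hz.2 hz.1])
        omega
    have hcard : 2 ≤ J.card := Finset.one_lt_card.2 ⟨l, hl, l', hleaf'.1, hne.symm⟩
    set J' := (J.erase l).erase l' with hJ'
    have hJ'c : J'.card + 2 = J.card := by
      rw [hJ', card_erase_of_mem (by simp [hne, hleaf'.1]), card_erase_of_mem hl]
      omega
    have hparJ' : ∀ v ∈ J, v ≠ root → par v ∈ J' := by
      intro v hv hvr
      simp only [hJ', mem_erase]
      exact ⟨hleaf'.2 v hv hvr, hleaf.2 v hv hvr, hT.par_mem v hv hvr⟩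
    have hsub : J' ⊆ J := fun x hx => by simp [hJ'] at hx; exact hx.2.2
    have hT' : PTree G J' root par rk := by
      refine ⟨?_, fun v hv => hparJ' v (hsub hv), fun v hv => hT.par_adj v (hsub hv),
        fun v hv => hT.par_rk v (hsub hv)⟩
      simp only [hJ', mem_erase]
      exact ⟨(hroot _ hleaf' hcard).symm, (hroot _ hleaf hcard).symm, hT.root_mem⟩
    obtain ⟨c, hc, hcL⟩ := ih J'.card (by omega) rfl hT'
    refine ⟨c, hsub hc, fun v hv => ?_⟩
    by_cases hv' : v ∈ J'
    · obtain ⟨L, hL, hlen⟩ := hcL v hv'
      exact ⟨L, hL.mono (by exact_mod_cast hsub), by omega⟩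
    · have hvr : v ≠ root := fun e => hv' (e ▸ hT'.root_mem)
      obtain ⟨L, hL, hlen⟩ := hcL (par v) (hparJ' v hv hvr)
      refine ⟨L ++ [v], (hL.mono (by exact_mod_cast hsub)).snoc (by exact_mod_cast hv)
        (hT.par_adj v hv hvr).symm (fun h => hv' (by exact_mod_cast hL.mem v h)), ?_⟩
      simp; omega
  · push Not at h2
    have hdown : ∀ m, ∀ v ∈ J, rk v = m → ∃ L, Pth G (J : Set V) v root L ∧
        L.IsChain (fun a b => par a = b) ∧ ∀ x ∈ L, rk x ≤ m := by
      intro m
      induction m using Nat.strong_induction_on with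
      | _ m ihm =>
      intro v hv hm
      by_cases hvr : v = root
      · subst hvr
        exact ⟨[v], pth_single (by exact_mod_cast hv), by simp, by simp [hm]⟩
      · have h1 := hT.par_rk v hv hvr
        obtain ⟨L, hL, hch, hr⟩ := ihm (rk (par v)) (by omega) _ (hT.par_mem v hv hvr) rfl
        have hnot : v ∉ L := fun h => by have := hr v h; omega
        have h := (hL.reverse.snoc (by exact_mod_cast hv) (hT.par_adj v hv hvr).symm
          (by simpa using hnot)).reverse
        simp at h
        refine ⟨v :: L, h, ?_, ?_⟩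
        · rw [List.isChain_cons]
          refine ⟨?_, hch⟩
          intro y hy
          rw [hL.head] at hy
          simp at hy
          exact hy
        · intro x hx
          rcases List.mem_cons.1 hx with rfl | hx
          · omega
          · have := hr x hx; omega
    obtain ⟨P, hP, hPc, -⟩ := hdown _ l hl rfl
    have hPall : ∀ k, ∀ v ∈ J, rk l - rk v = k → v ∈ P := by
      intro k
      induction k using Nat.strong_induction_on with
      | _ k ihk =>
      intro v hv hk
      by_cases hvl : v = l
      · subst hvl; exact hP.head_mem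
      · obtain ⟨w, hw, hwr, e⟩ := by
          simpa [IsLeaf, hv] using h2 v hvl
        have h1 := hT.par_rk w hw hwr
        rw [e] at h1
        have := hlmax w hw
        have hwP := ihk (rk l - rk w) (by omega) w hw rfl
        obtain ⟨A, B, eP⟩ := List.append_of_mem hwP
        subst eP
        cases B with
        | nil =>
          have := hP.last
          simp at this
          exact absurd this hwr
        | cons b B =>
          have := (List.isChain_split.1 hPc).2
          rw [List.isChain_cons_cons] at this
          simp [← this.1, e]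
    have hlen : P.length ≤ J.card := by
      rw [← List.toFinset_card_of_nodup hP.nodup]
      exact card_le_card fun x hx => by
        have := hP.mem x (List.mem_toFinset.1 hx); exact_mod_cast this
    have hpos : 0 < P.length := List.length_pos_of_ne_nil hP.ne_nil
    set c := P[P.length / 2]'(by omega) with hc
    have eP : P = P.take (P.length / 2) ++ c :: P.drop (P.length / 2 + 1) := by
      rw [hc, List.getElem_cons_drop, List.take_append_drop]
    refine ⟨c, by exact_mod_cast hP.mem c (List.getElem_mem _), fun v hv => ?_⟩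
    have hvP := hPall _ v hv rfl
    generalize hA : P.take (P.length / 2) = A at eP
    generalize hB : P.drop (P.length / 2 + 1) = B at eP
    have hAl : A.length = P.length / 2 := by rw [← hA, List.length_take]; omega
    have hBl : A.length + (B.length + 1) = P.length := by
      have := congrArg List.length eP; simpa using this.symm
    clear_value c
    subst eP
    rcases List.mem_append.1 hvP with hvA | hvB
    · obtain ⟨A₁, A₂, rfl⟩ := List.append_of_mem hvA
      have h := hP.takeTo
      simp at h
      have h' := (h.dropTo).reverse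
      exact ⟨_, h', by simp at hAl hBl hlen ⊢; omega⟩
    · obtain ⟨B₁, B₂, e⟩ := List.append_of_mem hvB
      have h := hP.dropTo
      rw [e] at h
      refine ⟨_, h.takeTo, ?_⟩
      have := congrArg List.length e
      simp at this hAl hBl hlen ⊢
      omega

/-- A connected set with independence number at most `a` has a vertex within distance `a` of
every vertex. -/
theorem exists_center {S : Finset V} {a : ℕ} (hne : S.Nonempty) (hc : Conn G (S : Set V))
    (ha : IndBound G (S : Set V) a) :
    ∃ r ∈ S, ∀ v ∈ S, ∃ d ≤ a, PathLen G (S : Set V) r v d := by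
  classical
  obtain ⟨s₀, hs₀⟩ := hne
  let Good : ℕ → Prop := fun m => ∃ (I J : Finset V) (par : V → V) (rk : V → ℕ) (root : V),
    I.card = m ∧ I ⊆ J ∧ J ⊆ S ∧ G.IsIndepSet (I : Set V) ∧ J.card + 1 ≤ 2 * m ∧
      PTree G J root par rk
  have hle : ∀ m, Good m → m ≤ a := by
    rintro m ⟨I, J, -, -, -, rfl, hIJ, hJS, hI, -, -⟩
    exact ha I (by exact_mod_cast hIJ.trans hJS) hI
  have h1 : Good 1 := ⟨{s₀}, {s₀}, id, fun _ => 0, s₀, by simp, subset_rfl, by simpa using hs₀,
    by simp [SimpleGraph.IsIndepSet], by simp,
    ⟨by simp, fun v hv hvr => by simp at hv; exact absurd hv hvr,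
      fun v hv hvr => by simp at hv; exact absurd hv hvr,
      fun v hv hvr => by simp at hv; exact absurd hv hvr⟩⟩
  set m := Nat.findGreatest Good a with hm
  obtain ⟨I, J, par, rk, root, hIc, hIJ, hJS, hI, hJc, hT⟩ :=
    Nat.findGreatest_spec (hle 1 h1) h1
  have hdom : ∀ v ∈ S, v ∈ J ∨ ∃ t ∈ J, G.Adj t v := by
    by_contra hno
    push Not at hno
    obtain ⟨v, hv, hvJ, hvadj⟩ := hno
    obtain ⟨L, hL⟩ := hc.pth (u := root) (v := v) (by exact_mod_cast hJS hT.root_mem)
      (by exact_mod_cast hv)
    obtain ⟨A, w, B, e, hw, hA⟩ := exists_first (L := L)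
      (p := fun x => x ∉ J ∧ ∀ t ∈ J, ¬ G.Adj t x) ⟨v, hL.last_mem, hvJ, hvadj⟩
    subst e
    rcases List.eq_nil_or_concat A with rfl | ⟨A', u, rfl⟩
    · have := hL.head
      simp at this
      subst this
      exact hw.1 hT.root_mem
    have hch : G.Adj u w := by
      have := hL.chain
      simp [List.isChain_append] at this
      tauto
    have hu : u ∉ J := fun h => hw.2 u h hch
    have hu' := hA u (by simp)
    push Not at hu'
    obtain ⟨t, htJ, htu⟩ := hu' hu
    have hwS : w ∈ S := by exact_mod_cast hL.mem w (by simp)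
    have huS : u ∈ S := by exact_mod_cast hL.mem u (by simp)
    set M := J.sup rk with hM
    have hrk : ∀ x ∈ J, rk x ≤ M := fun x hx => Finset.le_sup hx
    have huw : u ≠ w := hch.ne
    have hG : Good (I.card + 1) := by
      refine ⟨insert w I, insert w (insert u J),
        fun x => if x = w then u else if x = u then t else par x,
        fun x => if x = w then M + 2 else if x = u then M + 1 else rk x, root, ?_, ?_, ?_, ?_, ?_,
        ?_⟩
      · rw [card_insert_of_notMem fun h => hw.1 (hIJ h)]
      · exact insert_subset_insert _ (hIJ.trans (subset_insert _ _))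
      · simp [insert_subset_iff, hwS, huS, hJS]
      · rw [coe_insert, SimpleGraph.IsIndepSet, Set.pairwise_insert]
        exact ⟨hI, fun x hx _ => ⟨fun h => hw.2 x (hIJ hx) h.symm, fun h => hw.2 x (hIJ hx) h⟩⟩
      · have := card_insert_le w (insert u J); have := card_insert_le u J
        omega
      · refine ⟨by simp [hT.root_mem], ?_, ?_, ?_⟩ <;> intro x hx hxr <;>
          simp only [mem_insert] at hx ⊢ <;> rcases hx with rfl | rfl | hx
        · simp
        · simp [huw, htJ]
        · have hxw : x ≠ w := fun e => hw.1 (e ▸ hx)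
          have hxu : x ≠ u := fun e => hu (e ▸ hx)
          simp [hxw, hxu, hT.par_mem x hx hxr]
        · simpa using hch.symm
        · simpa [huw] using htu.symm
        · have hxw : x ≠ w := fun e => hw.1 (e ▸ hx)
          have hxu : x ≠ u := fun e => hu (e ▸ hx)
          simpa [hxw, hxu] using hT.par_adj x hx hxr
        · simp [huw]
        · have htw : t ≠ w := fun e => hw.1 (e ▸ htJ)
          have htu' : t ≠ x := fun e => hu (e ▸ htJ)
          have := hrk t htJ
          simp [huw, htw, htu']
          omega
        · have hxw : x ≠ w := fun e => hw.1 (e ▸ hx)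
          have hxu : x ≠ u := fun e => hu (e ▸ hx)
          have hp := hT.par_mem x hx hxr
          have hpw : par x ≠ w := fun e => hw.1 (e ▸ hp)
          have hpu : par x ≠ u := fun e => hu (e ▸ hp)
          simpa [hxw, hxu, hpw, hpu] using hT.par_rk x hx hxr
    have h2 : I.card + 1 ≤ Nat.findGreatest Good a := Nat.le_findGreatest (hle _ hG) hG
    omega
  obtain ⟨c, hcJ, hrad⟩ := PTree.radius _ rfl hT
  have hJpos : 0 < J.card := card_pos.2 ⟨c, hcJ⟩
  have hma : m ≤ a := Nat.findGreatest_le a
  refine ⟨c, hJS hcJ, fun v hv => ?_⟩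
  rcases hdom v hv with hvJ | ⟨t, htJ, hta⟩
  · obtain ⟨L, hL, hlen⟩ := hrad v hvJ
    exact ⟨L.length - 1, by omega, (hL.mono (by exact_mod_cast hJS)).toPathLen⟩
  · obtain ⟨L, hL, hlen⟩ := hrad t htJ
    have hL' := hL.mono (show (J : Set V) ⊆ (S : Set V) by exact_mod_cast hJS)
    obtain ⟨L', hL'', hlen', -⟩ := hL'.trans
      (pth_pair hL'.right_mem (by exact_mod_cast hv) hta)
    refine ⟨L'.length - 1, ?_, hL''.toPathLen⟩
    simp at hlen'
    omega

end Vale.Agent.P048
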