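import Vale.Agent.P048.Basic

/-!
A cycle with an even chord, together with a nonconstant labelling of its vertices, has
differently labelled pairs joined by paths of every length below the cycle length.
-/

namespace Vale.Agent.P048

variable {V : Type*} {G : SimpleGraph V}

/-- A cycle of length `c` given by a periodic map on `ℤ`. -/
structure ZCyc (G : SimpleGraph V) (c : ℕ) (f : ℤ → V) : Prop where
  three_le : 3 ≤ c
  periodic : ∀ i, f (i + c) = f i
  inj : ∀ i j, f i = f j → (c : ℤ) ∣ i - j
  adj : ∀ i, G.Adj (f i) (f (i + 1))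

variable {c : ℕ} {f : ℤ → V}

lemma ZCyc.eq_of_lt (hc : ZCyc G c f) {i j : ℤ} (h : f i = f j) (h1 : i - j < c)
    (h2 : j - i < c) : i = j := by
  obtain ⟨t, ht⟩ := hc.inj i j h
  have hcpos : (0 : ℤ) < c := by have := hc.three_le; omega
  have : t = 0 := by
    rcases lt_trichotomy t 0 with h | h | h
    · nlinarith
    · exact h
    · nlinarith
  subst this
  omega

lemma ZCyc.shift (hc : ZCyc G c f) (s : ℤ) : ZCyc G c (fun i => f (i + s)) where
  three_le := hc.three_le
  periodic := by
    intro i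
    have := hc.periodic (i + s)
    have e : i + ↑c + s = i + s + ↑c := by ring
    simp only [e, this]
  inj := by
    intro i j h
    have := hc.inj _ _ h
    simpa using this
  adj := by
    intro i
    have e : i + 1 + s = i + s + 1 := by ring
    simp only [e]
    exact hc.adj _

lemma ZCyc.exists_rep (hc : ZCyc G c f) (i : ℤ) : ∃ j : ℤ, 0 ≤ j ∧ j < c ∧ f i = f j := by
  have hcpos : (0 : ℤ) < c := by have := hc.three_le; omega
  have hper : Function.Periodic f (c : ℤ) := hc.periodic
  refine ⟨i % c, Int.emod_nonneg _ hcpos.ne', Int.emod_lt_of_pos _ hcpos, ?_⟩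
  have e : i = i % c + (i / c) • (c : ℤ) := by
    rw [smul_eq_mul]
    have := Int.emod_add_mul_ediv i c
    linarith
  conv_lhs => rw [e]
  exact (hper.zsmul (i / c)) _

/-- Going forward along the cycle. -/
lemma ZCyc.path_up (hc : ZCyc G c f) (u : ℤ) (x : ℕ) (hx : x < c) :
    PathLen G {v | ∃ i : ℤ, u ≤ i ∧ i ≤ u + x ∧ f i = v} (f u) (f (u + x)) x := by
  refine ⟨fun i => f (u + i), by simp, rfl, ?_, ?_, ?_⟩
  · intro i hi j hj hij
    have := hc.eq_of_lt hij (by omega) (by omega)
    omega
  · intro i hi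
    have := hc.adj (u + i)
    push_cast
    rw [← add_assoc]
    exact this
  · intro i hi
    exact ⟨u + i, by omega, by omega, rfl⟩

lemma ZCyc.path_down (hc : ZCyc G c f) (u : ℤ) (x : ℕ) (hx : x < c) :
    PathLen G {v | ∃ i : ℤ, u - x ≤ i ∧ i ≤ u ∧ f i = v} (f u) (f (u - x)) x := by
  have := (hc.path_up (u - x) x hx).reverse
  simpa using this

/-- The path `u-x, …, u, u+s, …, v`: chord in the middle, with the two arcs in given windows. -/
lemma ZCyc.path_chord (hc : ZCyc G c f) {u s a a' b b' : ℤ} (h : G.Adj (f u) (f (u + s)))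
    (ha : u = a ∨ u = a') (hb : u + s = b ∨ u + s = b') (haa : a ≤ a') (hbb : b ≤ b')
    (h1 : a' < b) (h2 : b' < a + c) :
    PathLen G (Set.range f) (f (if u = a then a' else a)) (f (if u + s = b then b' else b))
      ((a' - a).toNat + 1 + (b' - b).toNat) := by
  have hx : (a' - a).toNat < c := by omega
  have hy : (b' - b).toNat < c := by omega
  have ea : a + ((a' - a).toNat : ℤ) = a' := by omega
  have eb : b + ((b' - b).toNat : ℤ) = b' := by omega
  have PA := hc.path_up a _ hx
  have PB := hc.path_up b _ hy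
  rw [ea] at PA
  rw [eb] at PB
  have PA' : PathLen G {v | ∃ i : ℤ, a ≤ i ∧ i ≤ a' ∧ f i = v}
      (f (if u = a then a' else a)) (f u) (a' - a).toNat := by
    split_ifs with h'
    · subst h'; exact PA.reverse
    · have : u = a' := by tauto
      subst this; exact PA
  have PB' : PathLen G {v | ∃ i : ℤ, b ≤ i ∧ i ≤ b' ∧ f i = v}
      (f (u + s)) (f (if u + s = b then b' else b)) (b' - b).toNat := by
    split_ifs with h'
    · rw [h']; exact PB
    · have : u + s = b' := by tauto
      rw [this]; exact PB.reverse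
  have hu : a ≤ u ∧ u ≤ a' := by omega
  have hus : b ≤ u + s ∧ u + s ≤ b' := by omega
  have step := PA'.append (pathLen_edge_pair h) (by
    intro z hz hz'
    obtain ⟨i, hi1, hi2, rfl⟩ := hz
    rcases hz' with hz' | hz'
    · exact hz'
    · have := hc.eq_of_lt hz' (by omega) (by omega)
      omega)
  refine step.append' PB' ?_ ?_
  · intro z hz hz'
    obtain ⟨i, hi1, hi2, rfl⟩ := hz'
    rcases hz with hz | hz | hz
    · obtain ⟨j, hj1, hj2, hj⟩ := hz
      have := hc.eq_of_lt hj (by omega) (by omega)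
      omega
    · have := hc.eq_of_lt hz (by omega) (by omega)
      omega
    · exact hz
  · intro z hz
    rcases hz with (hz | hz | hz) | hz
    · obtain ⟨i, -, -, rfl⟩ := hz; exact Set.mem_range_self i
    · exact ⟨u, hz.symm⟩
    · exact ⟨u + s, hz.symm⟩
    · obtain ⟨i, -, -, rfl⟩ := hz; exact Set.mem_range_self i

lemma periodic_sub {P : ℤ → Prop} {g : ℤ} (h : ∀ t, P t ↔ P (t + g)) (q : ℤ) :
    ∀ t, P t ↔ P (t + g * q) := by
  intro t
  induction q using Int.induction_on with
  | zero => simp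
  | succ k ih =>
    rw [ih, h (t + g * k)]
    ring_nf
  | pred k ih =>
    rw [ih, h (t + g * (-(k : ℤ) - 1))]
    ring_nf

lemma exists_congr_Ico {d : ℕ} (hd : 0 < d) (t r : ℤ) :
    ∃ e : ℕ, e < d ∧ ∃ q : ℤ, t = r + e + d * q := by
  have hd' : (0 : ℤ) < d := by exact_mod_cast hd
  refine ⟨((t - r) % d).toNat, ?_, (t - r) / d, ?_⟩
  · have := Int.emod_lt_of_pos (t - r) hd'
    have := Int.emod_nonneg (t - r) hd'.ne'
    omega
  · have := Int.emod_add_mul_ediv (t - r) d
    have := Int.emod_nonneg (t - r) hd'.ne'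
    rw [Int.toNat_of_nonneg this]
    linarith

/-- Cross paths of every length. -/
theorem ZCyc.cross_paths (hc : ZCyc G c f) (P : V → Prop) (hP : ∃ i j, P (f i) ∧ ¬ P (f j))
    {u : ℤ} {s : ℕ} (hs2 : 2 ≤ s) (hsc : s + 2 ≤ c) (hseven : Even s)
    (hchord : G.Adj (f u) (f (u + s))) {l : ℕ} (hl1 : 1 ≤ l) (hlc : l < c) :
    ∃ i j, ¬ (P (f i) ↔ P (f j)) ∧ PathLen G (Set.range f) (f i) (f j) l := by
  classical
  by_contra hno
  have hno' : ∀ i j, PathLen G (Set.range f) (f i) (f j) l → (P (f i) ↔ P (f j)) := by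
    intro i j h
    by_contra hne
    exact hno ⟨i, j, hne, h⟩
  have hperl : ∀ t, P (f t) ↔ P (f (t + (l : ℤ))) := by
    intro t
    apply hno'
    refine (hc.path_up t l hlc).mono ?_
    rintro v ⟨i, -, -, rfl⟩
    exact Set.mem_range_self i
  have hperc : ∀ t, P (f t) ↔ P (f (t + (c : ℤ))) := fun t => by rw [hc.periodic t]
  have hex : ∃ d : ℕ, 0 < d ∧ ∀ t, P (f t) ↔ P (f (t + (d : ℤ))) := ⟨l, hl1, hperl⟩
  obtain ⟨d, hd0, hdper, hdmin⟩ : ∃ d : ℕ, 0 < d ∧ (∀ t, P (f t) ↔ P (f (t + (d : ℤ)))) ∧
      ∀ d' < d, ¬ (0 < d' ∧ ∀ t, P (f t) ↔ P (f (t + (d' : ℤ)))) :=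
    ⟨Nat.find hex, (Nat.find_spec hex).1, (Nat.find_spec hex).2,
      fun d' h => Nat.find_min hex h⟩
  have hmul : ∀ t q : ℤ, P (f t) ↔ P (f (t + d * q)) := fun t q =>
    periodic_sub (P := fun t => P (f t)) hdper q t
  have key : ∀ t t' q : ℤ, t' = t + d * q → (P (f t) ↔ P (f t')) := fun t t' q h => by
    subst h; exact hmul t q
  have hdvd : ∀ g : ℕ, (∀ t, P (f t) ↔ P (f (t + (g : ℤ)))) → d ∣ g := by
    intro g hg
    by_contra hnd
    have hne : g % d ≠ 0 := fun h => hnd (Nat.dvd_of_mod_eq_zero h)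
    refine hdmin (g % d) (Nat.mod_lt _ hd0) ⟨by omega, fun t => ?_⟩
    rw [hg t, hmul (t + (g % d : ℕ)) (g / d : ℕ)]
    have e : t + ((g % d : ℕ) : ℤ) + (d : ℤ) * ((g / d : ℕ) : ℤ) = t + (g : ℤ) := by
      have : ((g % d + d * (g / d) : ℕ) : ℤ) = (g : ℤ) := by rw [Nat.mod_add_div]
      push_cast at this ⊢
      linarith
    rw [e]
  have hd2 : 2 ≤ d := by
    by_contra h
    have hd1 : d = 1 := by omega
    obtain ⟨i, j, hi, hj⟩ := hP
    have := (hmul i (j - i)).1 hi
    rw [hd1] at this
    simp at this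
    exact hj this
  have hdl : d ∣ l := hdvd l hperl
  have hdc : d ∣ c := hdvd c hperc
  have hdl_le : d ≤ l := Nat.le_of_dvd (by omega) hdl
  obtain ⟨kl, hkl⟩ := hdl
  obtain ⟨kc, hkc⟩ := hdc
  have hkk : kl < kc := by
    by_contra h
    push Not at h
    have := Nat.mul_le_mul_left d h
    omega
  have hld : l + d ≤ c := by
    have := Nat.mul_le_mul_left d (Nat.succ_le_of_lt hkk)
    rw [Nat.mul_succ] at this
    omega
  -- the three kinds of chord paths
  have CA : ∀ (u : ℤ) (s x y : ℕ), G.Adj (f u) (f (u + s)) → y < s → x + s < c → x + 1 + y = l →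
      (P (f (u - x)) ↔ P (f (u + s - y))) := by
    intro u s x y h hy hx hl
    have := hc.path_chord (a := u - x) (a' := u) (b := u + s - y) (b' := u + s) h
      (Or.inr rfl) (Or.inr rfl) (by omega) (by omega) (by omega) (by omega)
    have e : (u - (u - (x:ℤ))).toNat + 1 + (u + s - (u + s - (y:ℤ))).toNat = l := by omega
    rw [e] at this
    have h1 : (if u = u - (x:ℤ) then u else u - x) = u - x := by split_ifs <;> omega
    have h2 : (if u + (s:ℤ) = u + s - y then u + (s:ℤ) else u + s - y) = u + s - y := by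
      split_ifs <;> omega
    rw [h1, h2] at this
    exact hno' _ _ this
  have CB : ∀ (u : ℤ) (s x y : ℕ), G.Adj (f u) (f (u + s)) → x < s → y + s < c → x + 1 + y = l →
      (P (f (u + x)) ↔ P (f (u + s + y))) := by
    intro u s x y h hx hy hl
    have := hc.path_chord (a := u) (a' := u + x) (b := u + s) (b' := u + s + y) h
      (Or.inl rfl) (Or.inl rfl) (by omega) (by omega) (by omega) (by omega)
    have e : (u + (x:ℤ) - u).toNat + 1 + (u + s + (y:ℤ) - (u + s)).toNat = l := by omega
    rw [e] at this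
    simp at this
    exact hno' _ _ this
  have CC : ∀ (u : ℤ) (s x y : ℕ), G.Adj (f u) (f (u + s)) → 1 ≤ s → x + 1 + y = l →
      s + x + y < c → (P (f (u - x)) ↔ P (f (u + s + y))) := by
    intro u s x y h hs hl hc'
    have := hc.path_chord (a := u - x) (a' := u) (b := u + s) (b' := u + s + y) h
      (Or.inr rfl) (Or.inl rfl) (by omega) (by omega) (by omega) (by omega)
    have e : (u - (u - (x:ℤ))).toNat + 1 + (u + s + (y:ℤ) - (u + s)).toNat = l := by omega
    rw [e] at this
    have h1 : (if u = u - (x:ℤ) then u else u - x) = u - x := by split_ifs <;> omega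
    rw [h1] at this
    simp at this
    exact hno' _ _ this
  rcases Nat.lt_or_ge d 3 with hd3 | hd3
  · -- period two
    obtain rfl : d = 2 := by omega
    set y := min (s - 1) (l - 1) with hy
    have := CA u s (l - 1 - y) y hchord (by omega) (by omega) (by omega)
    obtain ⟨r, hr⟩ := hseven
    set i0 : ℤ := u - ((l - 1 - y : ℕ) : ℤ) with hi0
    have base : P (f i0) ↔ P (f (i0 + 1)) := by
      rw [this]
      exact key _ _ (-((r : ℤ) + kl - y - 1)) (by push_cast; omega)
    have hP1 : ∀ t, P (f t) ↔ P (f (t + 1)) := by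
      intro t
      obtain ⟨e, he, q', hq'⟩ := exists_congr_Ico (d := 2) (by norm_num) t i0
      interval_cases e
      · rw [← key i0 t q' (by omega), ← key (i0 + 1) (t + 1) q' (by omega)]
        exact base
      · rw [← key (i0 + 1) t q' (by omega), ← key i0 (t + 1) (q' + 1) (by push_cast; omega)]
        exact base.symm
    have := hdmin 1 (by norm_num)
    exact this ⟨by norm_num, fun t => by simpa using hP1 t⟩
  · -- period at least three; make the chord short
    obtain ⟨u, s, hchord, hs2, hsc, hshort⟩ : ∃ (u : ℤ) (s : ℕ), G.Adj (f u) (f (u + s)) ∧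
        2 ≤ s ∧ s + 2 ≤ c ∧ 2 * s ≤ c := by
      rcases Nat.lt_or_ge c (2 * s) with h | h
      · refine ⟨u + s, c - s, ?_, by omega, by omega, by omega⟩
        have e : u + (s:ℤ) + ((c - s : ℕ) : ℤ) = u + c := by omega
        rw [e, hc.periodic]
        exact hchord.symm
      · exact ⟨u, s, hchord, hs2, hsc, h⟩
    rcases Nat.lt_or_ge d s with hds | hds
    · -- two reflections
      set y0 := l - (c - s) with hy0
      have hA : ∀ t, P (f t) ↔ P (f (2 * u + s - l + 1 - t)) := by
        intro t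
        obtain ⟨e, he, q, hq⟩ := exists_congr_Ico hd0 t (u - l + 1 + y0)
        have := CA u s (l - 1 - (y0 + e)) (y0 + e) hchord (by omega) (by omega) (by omega)
        have e1 : u - ((l - 1 - (y0 + e) : ℕ) : ℤ) = u - l + 1 + y0 + e := by omega
        rw [e1] at this
        rw [← key (u - l + 1 + y0 + e) t q hq, this]
        exact key _ _ (-q) (by rw [hq]; push_cast; ring)
      have hB : ∀ t, P (f t) ↔ P (f (2 * u + s + l - 1 - t)) := by
        intro t
        obtain ⟨e, he, q, hq⟩ := exists_congr_Ico hd0 t (u + y0)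
        have := CB u s (y0 + e) (l - 1 - (y0 + e)) hchord (by omega) (by omega) (by omega)
        have e1 : u + ((y0 + e : ℕ) : ℤ) = u + y0 + e := by omega
        rw [e1] at this
        rw [← key (u + y0 + e) t q hq, this]
        have e2 : ((l - 1 - (y0 + e) : ℕ) : ℤ) = l - 1 - (y0 + e) := by omega
        exact key _ _ (-q) (by rw [hq, e2]; ring)
      refine hdmin 2 (by omega) ⟨by norm_num, fun t => ?_⟩
      rw [hA (t + ((2 : ℕ) : ℤ)), hB (2 * u + s - l + 1 - (t + ((2 : ℕ) : ℤ)))]
      have hl' : (l : ℤ) = d * kl := by exact_mod_cast hkl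
      exact key _ _ (2 * kl) (by rw [hl']; push_cast; ring)
    · -- one translation by `s - 1`
      have hper : ∀ t, P (f t) ↔ P (f (t + ((s - 1 : ℕ) : ℤ))) := by
        intro t
        obtain ⟨e, he, q, hq⟩ := exists_congr_Ico hd0 t (u - l + 1)
        have := CC u s (l - 1 - e) e hchord (by omega) (by omega) (by omega)
        have e1 : u - ((l - 1 - e : ℕ) : ℤ) = u - l + 1 + e := by omega
        rw [e1] at this
        rw [← key (u - l + 1 + e) t q hq, this]
        have hl' : (l : ℤ) = d * kl := by exact_mod_cast hkl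
        have e2 : ((s - 1 : ℕ) : ℤ) = (s:ℤ) - 1 := by omega
        exact key _ _ (q - kl) (by rw [hq, e2, hl']; ring)
      exact hdmin (s - 1) (by omega) ⟨by omega, hper⟩

end Vale.Agent.P048
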