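import Vale.Agent.P048.Basic

/-!
Definitions shared by the structural lemmas.
-/

namespace Vale.Agent.P048

open Finset

variable {V : Type*}

/-- Every vertex of `T` has at least `k` neighbours inside `T`. -/
def MinDeg (G : SimpleGraph V) (T : Finset V) (k : ℕ) : Prop :=
  ∀ v ∈ T, ∃ N : Finset V, N ⊆ T ∧ k ≤ N.card ∧ ∀ w ∈ N, G.Adj v w

/-- `T` spans a two-connected induced subgraph. -/
structure TwoConn (G : SimpleGraph V) (T : Finset V) : Prop where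
  three_le : 3 ≤ T.card
  conn : Conn G (T : Set V)
  conn_erase : ∀ v ∈ T, Conn G ((T : Set V) \ {v})

/-- Two disjoint paths inside `S` from `A` to `B`, meeting `A ∪ B` only in their ends. -/
structure Linkage (G : SimpleGraph V) (S A B : Set V) (x y : ℕ → V) (p q : ℕ) : Prop where
  xinj : ∀ i ≤ p, ∀ j ≤ p, x i = x j → i = j
  yinj : ∀ i ≤ q, ∀ j ≤ q, y i = y j → i = j
  disj : ∀ i ≤ p, ∀ j ≤ q, x i ≠ y j
  xadj : ∀ i < p, G.Adj (x i) (x (i + 1))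
  yadj : ∀ i < q, G.Adj (y i) (y (i + 1))
  xmem : ∀ i ≤ p, x i ∈ S
  ymem : ∀ i ≤ q, y i ∈ S
  xA : x 0 ∈ A
  yA : y 0 ∈ A
  xB : x p ∈ B
  yB : y q ∈ B
  xint : ∀ i, 0 < i → i < p → x i ∉ A ∧ x i ∉ B
  yint : ∀ i, 0 < i → i < q → y i ∉ A ∧ y i ∉ B

end Vale.Agent.P048
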