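import Vale.Agent.P048.Lists

/-!
A two-connected vertex set of minimum degree `k` carries a cycle of length at least `2k`
(or a spanning one).
-/

namespace Vale.Agent.P048

open Finset

variable {V : Type*} {G : SimpleGraph V}

lemma Pth.glue' {S : Set V} {u z v : V} {L₁ L₂ : List V} (h₁ : Pth G S u z L₁)
    (h₂ : Pth G S z v L₂) (h : ∀ x ∈ L₁, x ∈ L₂ → x = z) :
    ∃ L, Pth G S u v L ∧ ∀ x, x ∈ L ↔ x ∈ L₁ ∨ x ∈ L₂ := by
  rcases List.eq_nil_or_concat L₁ with rfl | ⟨A, a, rfl⟩
  · exact absurd rfl h₁.ne_nil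
  rw [List.concat_eq_append] at *
  have ha : a = z := by
    have := h₁.last
    simpa [List.getLast?_append] using this
  subst ha
  cases L₂ with
  | nil => exact absurd rfl h₂.ne_nil
  | cons b B =>
    have hb : b = a := by
      have := h₂.head
      simpa using this
    subst hb
    refine ⟨A ++ b :: B, h₁.glue h₂ ?_, ?_⟩
    · intro x hx hxB
      have e := h x (by simp [hx]) (by simp [hxB])
      subst e
      have := (List.nodup_cons.1 h₂.nodup).1
      exact this hxB
    · intro x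
      simp
      tauto

lemma Pth.join {S : Set V} {u a b v : V} {L₁ L₂ : List V} (h₁ : Pth G S u a L₁)
    (h₂ : Pth G S b v L₂) (hab : G.Adj a b) (h : ∀ x ∈ L₁, x ∉ L₂) :
    Pth G S u v (L₁ ++ L₂) where
  head := by rw [List.head?_append, h₁.head]; rfl
  last := by rw [List.getLast?_append, h₂.last]; rfl
  nodup := List.nodup_append.2 ⟨h₁.nodup, h₂.nodup, fun x hx y hy e => h x hx (e ▸ hy)⟩
  chain := by
    rw [List.isChain_append]
    refine ⟨h₁.chain, h₂.chain, ?_⟩
    intro x hx y hy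
    rw [h₁.last] at hx
    rw [h₂.head] at hy
    simp at hx hy
    subst hx hy
    exact hab
  mem := by
    intro x hx
    rcases List.mem_append.1 hx with hx | hx
    · exact h₁.mem x hx
    · exact h₂.mem x hx

variable {T : Finset V}

/-- The segment of `x` from `i` to `j`. -/
def seg (x : ℕ → V) (i j : ℕ) : List V := (List.range' i (j + 1 - i)).map x

lemma mem_seg {x : ℕ → V} {i j : ℕ} {v : V} (hij : i ≤ j) :
    v ∈ seg x i j ↔ ∃ k, i ≤ k ∧ k ≤ j ∧ x k = v := by
  simp [seg, List.mem_range'_1]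
  constructor
  · rintro ⟨k, ⟨h1, h2⟩, h3⟩; exact ⟨k, h1, by omega, h3⟩
  · rintro ⟨k, h1, h2, h3⟩; exact ⟨k, ⟨h1, by omega⟩, h3⟩

/-- A longest path inside `T`. -/
structure Longest (G : SimpleGraph V) (T : Finset V) (x : ℕ → V) (l : ℕ) : Prop where
  inj : ∀ i ≤ l, ∀ j ≤ l, x i = x j → i = j
  adj : ∀ i < l, G.Adj (x i) (x (i + 1))
  mem : ∀ i ≤ l, x i ∈ T
  max : ∀ u v n, PathLen G (T : Set V) u v n → n ≤ l

lemma exists_longest [DecidableEq V] (hne : T.Nonempty) : ∃ x l, Longest G T x l := by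
  classical
  obtain ⟨v, hv⟩ := hne
  let P : ℕ → Prop := fun n => ∃ u v, PathLen G (T : Set V) u v n
  have h0 : P 0 := ⟨v, v, pathLen_refl (by exact_mod_cast hv)⟩
  obtain ⟨u, w, x, x0, xl, xi, xa, xm⟩ :=
    Nat.findGreatest_spec (P := P) (Nat.zero_le T.card) h0
  refine ⟨x, _, xi, xa, fun i hi => by exact_mod_cast xm i hi, fun a b n h => ?_⟩
  exact Nat.le_findGreatest (by have := h.le_card; omega) ⟨a, b, h⟩

variable {x : ℕ → V} {l : ℕ}

lemma Longest.pth_seg (hx : Longest G T x l) {i j : ℕ} (hij : i ≤ j) (hj : j ≤ l) :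
    Pth G (T : Set V) (x i) (x j) (seg x i j) where
  head := by simp [seg, List.head?_range']; omega
  last := by
    rw [seg, show j + 1 - i = (j - i) + 1 by omega, List.range'_concat]
    simp [show i + (j - i) = j by omega]
  nodup := by
    refine List.Nodup.map_on ?_ List.nodup_range'
    intro a ha b hb hab
    simp [List.mem_range'_1] at ha hb
    exact hx.inj a (by omega) b (by omega) hab
  chain := by
    rw [List.isChain_iff_getElem]
    intro k hk
    simp [seg] at hk ⊢
    exact hx.adj (i + k) (by omega)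
  mem := by
    intro v hv
    obtain ⟨k, -, hk, rfl⟩ := (mem_seg hij).1 hv
    exact_mod_cast hx.mem k (by omega)

lemma Longest.end_nbr [DecidableEq V] (hx : Longest G T x l) {e : ℕ} (he : e = 0 ∨ e = l) {w : V}
    (hw : w ∈ T) (hadj : G.Adj (x e) w) : ∃ k ≤ l, x k = w := by
  by_contra hno
  push Not at hno
  have hnot : w ∉ seg x 0 l := fun h => by
    obtain ⟨k, -, hk, e⟩ := (mem_seg (Nat.zero_le l)).1 h
    exact hno k hk e
  have hs := hx.pth_seg (Nat.zero_le l) le_rfl
  have hlen : (seg x 0 l).length = l + 1 := by simp [seg]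
  rcases he with rfl | rfl
  · have := (hs.reverse.snoc (by exact_mod_cast hw) hadj (by simpa using hnot)).toPathLen
    have := hx.max _ _ _ this
    simp [hlen] at this
  · have := (hs.snoc (by exact_mod_cast hw) hadj hnot).toPathLen
    have := hx.max _ _ _ this
    simp [hlen] at this

/-- Positions of the neighbours of `x e`. -/
noncomputable def nbrPos (G : SimpleGraph V) (x : ℕ → V) (l e : ℕ) : Finset ℕ := by
  classical
  exact (Finset.range (l + 1)).filter fun i => G.Adj (x e) (x i)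

lemma mem_nbrPos {e i : ℕ} : i ∈ nbrPos G x l e ↔ i ≤ l ∧ G.Adj (x e) (x i) := by
  simp [nbrPos]

lemma Longest.card_nbrPos [DecidableEq V] (hx : Longest G T x l) {k : ℕ} (hd : MinDeg G T k)
    {e : ℕ} (he : e = 0 ∨ e = l) : k ≤ (nbrPos G x l e).card := by
  classical
  obtain ⟨N, hNT, hNk, hN⟩ := hd (x e) (hx.mem e (by omega))
  refine hNk.trans ?_
  refine le_trans (card_le_card (t := (nbrPos G x l e).image x) ?_) card_image_le
  intro w hw
  obtain ⟨i, hi, rfl⟩ := hx.end_nbr he (hNT hw) (hN w hw)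
  exact mem_image_of_mem x (mem_nbrPos.2 ⟨hi, hN _ hw⟩)

/-- Off-path vertices together with the given ends. -/
def offSet (T : Finset V) (x : ℕ → V) (l : ℕ) (ends : Set V) : Set V :=
  {v | v ∈ T ∧ ((∀ k ≤ l, x k ≠ v) ∨ v ∈ ends)}

lemma offSet_subset (ends : Set V) : offSet T x l ends ⊆ (T : Set V) := fun v hv => by
  exact_mod_cast hv.1

lemma offSet_mono {e e' : Set V} (h : e ⊆ e') : offSet T x l e ⊆ offSet T x l e' :=
  fun _ hv => ⟨hv.1, hv.2.imp id fun hh => h hh⟩

/-- A path outside `x` joining two of its positions. -/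
def Bridge (G : SimpleGraph V) (T : Finset V) (x : ℕ → V) (l s t : ℕ) : Prop :=
  ∃ R, Pth G (offSet T x l {x s, x t}) (x s) (x t) R

/-- State of the noncrossing construction. -/
structure DState (G : SimpleGraph V) (T : Finset V) (x : ℕ → V) (l a b u t : ℕ) (Q : List V)
    (E : Set V) : Prop where
  hau : a ≤ u
  hub : u ≤ b
  hut : u < t
  htl : t ≤ l
  path : Pth G (T : Set V) (x u) (x t) Q
  sub : ∀ z ∈ Q, (∃ k ≤ u, x k = z) ∨ z = x t ∨ z ∈ E
  contains : ∀ k ∈ nbrPos G x l 0, x k ∈ Q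
  zero : x 0 ∈ Q
  off : ∀ z ∈ E, ∀ k ≤ l, x k ≠ z
  maxU : ∀ s < u, ∀ t₃, t < t₃ → t₃ ≤ l → ¬ Bridge G T x l s t₃
  maxE : ∀ z ∈ E, ∀ t₃, t < t₃ → t₃ ≤ l → ¬ ∃ R, Pth G (offSet T x l {x t₃}) z (x t₃) R

lemma Longest.exists_bridge (hx : Longest G T x l) (hT : TwoConn G T) {t : ℕ} (h0 : 0 < t)
    (htl : t < l) :
    ∃ t₂ s, s < t ∧ t < t₂ ∧ t₂ ≤ l ∧ Bridge G T x l s t₂ ∧
      ∀ s' < t, ∀ t₃, t₂ < t₃ → t₃ ≤ l → ¬ Bridge G T x l s' t₃ := by
  classical
  let P : ℕ → Prop := fun t₂ => t < t₂ ∧ ∃ s < t, Bridge G T x l s t₂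
  suffices h : ∃ t₂ ≤ l, P t₂ by
    obtain ⟨t₂, ht₂, hP⟩ := h
    obtain ⟨h1, s, hs, hb⟩ := Nat.findGreatest_spec (P := P) ht₂ hP
    refine ⟨_, s, hs, h1, Nat.findGreatest_le l, hb, fun s' hs' t₃ h3 h3l hb' => ?_⟩
    exact Nat.findGreatest_is_greatest (P := P) h3 h3l ⟨by omega, s', hs', hb'⟩
  obtain ⟨R, hR⟩ := (hT.conn_erase (x t) (hx.mem t (by omega))).pth (u := x 0) (v := x l)
    ⟨by exact_mod_cast hx.mem 0 (Nat.zero_le l), fun e => by
      have := hx.inj 0 (Nat.zero_le l) t (by omega) (by simpa using e); omega⟩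
    ⟨by exact_mod_cast hx.mem l le_rfl, fun e => by
      have := hx.inj l le_rfl t (by omega) (by simpa using e); omega⟩
  obtain ⟨A, z, B, e, ⟨s, hs, rfl⟩, hB⟩ := exists_last (L := R) (p := fun v => ∃ k < t, x k = v)
    ⟨x 0, hR.head_mem, 0, h0, rfl⟩
  subst e
  have hdrop := hR.dropTo
  have hlB : x l ∈ B := by
    have := hdrop.last_mem
    rcases List.mem_cons.1 this with h | h
    · have := hx.inj l le_rfl s (by omega) h; omega
    · exact h
  obtain ⟨C, y, D, e, ⟨t₂, ht₂, rfl⟩, hC⟩ := exists_first (L := B)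
    (p := fun v => ∃ k ≤ l, x k = v) ⟨x l, hlB, l, le_rfl, rfl⟩
  subst e
  have h1 : t < t₂ := by
    rcases lt_trichotomy t₂ t with h | h | h
    · exact absurd ⟨t₂, h, rfl⟩ (hB (x t₂) (by simp))
    · exact absurd (h ▸ Set.mem_singleton _) (hdrop.mem (x t₂) (by simp)).2
    · exact h
  refine ⟨t₂, ht₂, h1, s, hs, ?_⟩
  have h := Pth.takeTo (L₁ := x s :: C) (z := x t₂) (L₂ := D) hdrop
  refine ⟨_, h.head, h.last, h.nodup, h.chain, fun v hv => ?_⟩
  refine ⟨by exact_mod_cast (h.mem v hv).1, ?_⟩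
  simp at hv
  rcases hv with hv | hv | hv
  · exact Or.inr (by simp [hv])
  · exact Or.inl fun k hk e => hC v hv ⟨k, hk, e⟩
  · exact Or.inr (by simp [hv])

lemma Longest.bridge_step (hx : Longest G T x l) {s t t₂ : ℕ} (hs : s < t) (htl : t₂ ≤ l)
    {R : List V} (hR : Pth G (offSet T x l {x s, x t₂}) (x s) (x t₂) R)
    (hmax : ∀ s' < t, ∀ t₃, t₂ < t₃ → t₃ ≤ l → ¬ Bridge G T x l s' t₃) :
    ∀ z ∈ R, (∀ k ≤ l, x k ≠ z) →
      ∀ t₃, t₂ < t₃ → t₃ ≤ l → ¬ ∃ R', Pth G (offSet T x l {x t₃}) z (x t₃) R' := by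
  rintro z hz hoff t₃ h3 h3l ⟨R', hR'⟩
  obtain ⟨A, B, rfl⟩ := List.append_of_mem hz
  have h := hR.takeTo
  have h' : Pth G (offSet T x l {x s, x t₃}) (x s) z (A ++ [z]) := by
    refine ⟨h.head, h.last, h.nodup, h.chain, fun v hv => ?_⟩
    obtain ⟨hvT, hv'⟩ := h.mem v hv
    refine ⟨hvT, hv'.imp id fun h2 => ?_⟩
    simp at h2 ⊢
    rcases h2 with h2 | h2
    · exact Or.inl h2
    · exfalso
      subst h2
      have hnd := hR.nodup
      rcases List.eq_nil_or_concat B with rfl | ⟨B', b, rfl⟩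
      · have := hR.last
        simp at this
        exact hoff t₂ htl this.symm
      · have := hR.last
        simp [List.getLast?_append, List.getLast?_cons, List.concat_eq_append] at this
        subst this
        simp [List.nodup_append] at hnd hv
        rcases hv with hv | hv
        · exact (hnd.2.2 _ hv).2 _ (Or.inr rfl) rfl
        · exact hoff t₂ htl hv
  obtain ⟨L, hL, -⟩ := h'.trans (hR'.mono (offSet_mono (by simp)))
  exact hmax s hs t₃ h3 h3l ⟨L, hL⟩

/-- Some vertex of the cycle has at least `k` neighbours on it. -/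
def RichVertex (G : SimpleGraph V) (f : ℤ → V) (k : ℕ) : Prop :=
  ∃ i, ∃ N : Finset V, k ≤ N.card ∧ ∀ w ∈ N, G.Adj (f i) w ∧ ∃ j, f j = w

/-- From a closed path containing many positions to a long cycle. -/
lemma close_cycle [DecidableEq V] {S : Set V} {u v : V} {L : List V} {k : ℕ} {F : Finset V}
    (hL : Pth G S u v L) (hadj : G.Adj v u) (hF : ∀ w ∈ F, w ∈ L) (hk : 2 * k ≤ F.card)
    (h3 : 3 ≤ F.card) {e : V} {N : Finset V} (he : e ∈ F) (hN : k ≤ N.card)
    (hNe : ∀ w ∈ N, G.Adj e w ∧ w ∈ F) :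
    ∃ c f, 2 * k ≤ c ∧ ZCyc G c f ∧ (∀ i, f i ∈ S) ∧ RichVertex G f k := by
  have hlen : F.card ≤ L.length := by
    rw [← List.toFinset_card_of_nodup hL.nodup]
    exact card_le_card fun w hw => List.mem_toFinset.2 (hF w hw)
  obtain ⟨f, hf, hfm, hfs⟩ := exists_zcyc_surj hL.nodup hL.chain (by omega) (fun a b ha hb => by
    rw [hL.last] at ha; rw [hL.head] at hb
    simp at ha hb
    subst ha hb
    exact hadj)
  obtain ⟨i, hi⟩ := hfs e (hF e he)
  exact ⟨L.length, f, by omega, hf, fun i => hL.mem _ (hfm i), i, N, hN, fun w hw =>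
    ⟨hi ▸ (hNe w hw).1, hfs w (hF w (hNe w hw).2)⟩⟩

lemma Longest.finish [DecidableEq V] (hx : Longest G T x l) {k : ℕ} (hd : MinDeg G T k)
    (hk : 2 ≤ k) {a b : ℕ} (haN : ∀ j ∈ nbrPos G x l 0, j ≤ a)
    (hb : b ∈ nbrPos G x l l) (hbN : ∀ i ∈ nbrPos G x l l, b ≤ i) (hab : a ≤ b) {u t : ℕ}
    {Q : List V} {E : Set V} (hS : DState G T x l a b u t Q E) (htb : b < t) :
    ∃ c f, 2 * k ≤ c ∧ ZCyc G c f ∧ (∀ i, f i ∈ (T : Set V)) ∧ RichVertex G f k := by
  classical
  obtain ⟨t', ht', htmax⟩ := ((nbrPos G x l l).filter (· < t)).exists_max_image id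
    ⟨b, by simp [hb, htb]⟩
  simp at ht' htmax
  have hub := hS.hub
  have hbt' : b ≤ t' := hbN t' ht'.1
  have htl := hS.htl
  obtain ⟨L₁, hL₁, hmem₁⟩ := hS.path.glue' (hx.pth_seg htl le_rfl) (by
    intro z hz hz'
    obtain ⟨j, h1, h2, rfl⟩ := (mem_seg htl).1 hz'
    rcases hS.sub _ hz with ⟨i, hi, e⟩ | e | e
    · have := hx.inj i (by omega) j h2 e; have := hS.hut; omega
    · exact e
    · exact absurd rfl (hS.off _ e j h2))
  set F := (({0, l} : Finset ℕ) ∪ (nbrPos G x l 0 ∪ nbrPos G x l l)).image x with hF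
  have hFc : 2 * k + 1 ≤ F.card := by
    rw [hF, card_image_of_injOn]
    · have h1 := hx.card_nbrPos hd (e := 0) (Or.inl rfl)
      have h2 := hx.card_nbrPos hd (e := l) (Or.inr rfl)
      have h3 : (nbrPos G x l 0 ∩ nbrPos G x l l).card ≤ 1 := by
        refine (card_le_card (t := {a}) ?_).trans (by simp)
        intro i hi
        simp at hi ⊢
        have := haN i hi.1; have := hbN i hi.2
        omega
      have h4 := card_union_add_card_inter (nbrPos G x l 0) (nbrPos G x l l)
      have hbl := (mem_nbrPos.1 hb).1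
      have h5 : Disjoint ({0, l} : Finset ℕ) (nbrPos G x l 0 ∪ nbrPos G x l l) := by
        obtain ⟨j, hj, hj0⟩ := exists_mem_ne (s := nbrPos G x l 0) (by omega) 0
        rw [disjoint_left]
        intro i hi
        simp at hi ⊢
        rcases hi with rfl | rfl
        · refine ⟨fun h => (mem_nbrPos.1 h).2.ne rfl, fun h => ?_⟩
          have := hbN _ h; have := haN j hj; omega
        · refine ⟨fun h => ?_, fun h => (mem_nbrPos.1 h).2.ne rfl⟩
          have := haN _ h
          have h' := (mem_nbrPos.1 hb).2.ne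
          exact h' (congrArg x (by omega))
      have h6 : ({0, l} : Finset ℕ).card = 2 := by
        refine card_pair fun e => ?_
        subst e
        obtain ⟨j, hj, hj0⟩ := exists_mem_ne (s := nbrPos G x 0 0) (by omega) 0
        have := (mem_nbrPos.1 hj).1
        omega
      rw [card_union_of_disjoint h5]
      omega
    · intro i hi j hj e
      simp [mem_nbrPos] at hi hj
      exact hx.inj i (by omega) j (by omega) e
  have hEnd : x l ∈ F ∧ ∀ i ∈ nbrPos G x l l, x i ∈ F := by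
    refine ⟨mem_image_of_mem x (by simp), fun i hi => mem_image_of_mem x (by simp [hi])⟩
  have hNc : k ≤ ((nbrPos G x l l).image x).card := by
    rw [card_image_of_injOn (fun i hi j hj e =>
      hx.inj i (mem_nbrPos.1 hi).1 j (mem_nbrPos.1 hj).1 e)]
    exact hx.card_nbrPos hd (Or.inr rfl)
  have hNe : ∀ w ∈ (nbrPos G x l l).image x, G.Adj (x l) w ∧ w ∈ F := by
    intro w hw
    obtain ⟨i, hi, rfl⟩ := mem_image.1 hw
    exact ⟨(mem_nbrPos.1 hi).2, hEnd.2 i hi⟩
  have hcover : ∀ w ∈ F, w ∈ L₁ ∨ ∃ j, u + 1 ≤ j ∧ j ≤ t' ∧ x j = w := by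
    intro w hw
    simp [hF] at hw
    rcases hw with rfl | rfl | ⟨i, hi, rfl⟩
    · exact Or.inl ((hmem₁ _).2 (Or.inl hS.zero))
    · exact Or.inl ((hmem₁ _).2 (Or.inr (hx.pth_seg htl le_rfl).last_mem))
    · rcases hi with hi | hi
      · exact Or.inl ((hmem₁ _).2 (Or.inl (hS.contains i hi)))
      · have h1 := hbN i hi
        rcases Nat.lt_or_ge i t with h | h
        · rcases Nat.lt_or_ge u i with h' | h'
          · exact Or.inr ⟨i, h', htmax i hi h, rfl⟩
          · obtain rfl : i = u := by omega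
            exact Or.inl ((hmem₁ _).2 (Or.inl hS.path.head_mem))
        · exact Or.inl ((hmem₁ _).2 (Or.inr ((mem_seg htl).2 ⟨i, h, (mem_nbrPos.1 hi).1, rfl⟩)))
  have hadj := (mem_nbrPos.1 ht'.1).2
  rcases Nat.lt_or_ge u t' with h | h
  · have h2 := (hx.pth_seg (show u + 1 ≤ t' by omega) (mem_nbrPos.1 ht'.1).1).reverse
    have hj := hL₁.join h2 hadj (by
      intro z hz hz'
      simp at hz'
      obtain ⟨j, h1, h2, rfl⟩ := (mem_seg (show u + 1 ≤ t' by omega)).1 hz'
      rcases (hmem₁ _).1 hz with hz | hz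
      · rcases hS.sub _ hz with ⟨i, hi, e⟩ | e | e
        · have := hx.inj i (by omega) j (by omega) e; omega
        · have := hx.inj j (by omega) t htl e; omega
        · exact hS.off _ e j (by omega) rfl
      · obtain ⟨i, h3, h4, e⟩ := (mem_seg htl).1 hz
        have := hx.inj i h4 j (by omega) e; omega)
    refine close_cycle hj (hx.adj u (by omega)).symm (F := F) ?_ (by omega) (by omega) hEnd.1 hNc hNe
    intro w hw
    simp
    rcases hcover w hw with h' | ⟨j, h1, h2, h3⟩
    · exact Or.inl h'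
    · exact Or.inr ((mem_seg (show u + 1 ≤ t' by omega)).2 ⟨j, h1, h2, h3⟩)
  · obtain rfl : t' = u := by omega
    refine close_cycle hL₁ hadj (F := F) ?_ (by omega) (by omega) hEnd.1 hNc hNe
    intro w hw
    rcases hcover w hw with h' | ⟨j, h1, h2, -⟩
    · exact h'
    · omega

lemma Longest.next_state [DecidableEq V] (hx : Longest G T x l) (hT : TwoConn G T) {a b u t : ℕ}
    {Q : List V} {E : Set V} (hS : DState G T x l a b u t Q E) (htb : t ≤ b) (hbl : b < l) :
    ∃ t₂ Q' E', t < t₂ ∧ DState G T x l a b t t₂ Q' E' := by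
  have hau := hS.hau
  have hut := hS.hut
  have htl := hS.htl
  obtain ⟨t₂, s, hs, h2, h2l, ⟨R, hR⟩, hmax⟩ := hx.exists_bridge hT (t := t) (by omega) (by omega)
  have hus : u ≤ s := by
    by_contra h
    exact hS.maxU s (by omega) t₂ h2 h2l ⟨R, hR⟩
  have hoffE : ∀ z ∈ Q, (∀ k ≤ l, x k ≠ z) → z ∈ E := by
    intro z hz hoff
    rcases hS.sub z hz with ⟨i, hi, e⟩ | e | e
    · exact absurd e (hoff i (by omega))
    · exact absurd e.symm (hoff t htl)
    · exact e
  obtain ⟨L₁, hL₁, hm₁⟩ := hS.path.reverse.glue' (hx.pth_seg hus (by omega)) (by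
    intro z hz hz'
    simp at hz
    obtain ⟨j, h1, h2', rfl⟩ := (mem_seg hus).1 hz'
    rcases hS.sub _ hz with ⟨i, hi, e⟩ | e | e
    · have := hx.inj i (by omega) j (by omega) e
      rw [show j = u by omega]
    · have := hx.inj j (by omega) t htl e; omega
    · exact absurd rfl (hS.off _ e j (by omega)))
  obtain ⟨L, hL, hm⟩ := hL₁.glue' (hR.mono (offSet_subset _)) (by
    intro z hz hz'
    obtain ⟨hzT, hz2⟩ := hR.mem z hz'
    rcases hz2 with hoff | hz2
    · exfalso
      have hzQ : z ∈ Q := by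
        rcases (hm₁ z).1 hz with h | h
        · simpa using h
        · obtain ⟨j, -, hj, e⟩ := (mem_seg hus).1 h
          exact absurd e (hoff j (by omega))
      obtain ⟨A, B, rfl⟩ := List.append_of_mem hz'
      have h := hR.dropTo
      refine hS.maxE z (hoffE z hzQ hoff) t₂ h2 h2l ⟨_, h.head, h.last, h.nodup, h.chain, ?_⟩
      intro v hv
      obtain ⟨hvT, hv'⟩ := h.mem v hv
      refine ⟨hvT, hv'.imp id fun h' => ?_⟩
      simp at h' ⊢
      rcases h' with h' | h'
      · exfalso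
        subst h'
        cases A with
        | nil =>
          have := hR.head
          simp at this
          exact hoff s (by omega) this.symm
        | cons a' A =>
          have := hR.head
          simp at this
          subst this
          have hnd := hR.nodup
          simp at hnd hv
          rcases hv with hv | hv
          · exact hoff s (by omega) hv
          · exact hnd.1.2.2 hv
      · exact h'
    · simp at hz2
      rcases hz2 with hz2 | hz2
      · exact hz2
      · exfalso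
        subst hz2
        rcases (hm₁ _).1 hz with h | h
        · rcases hS.sub _ (by simpa using h) with ⟨i, hi, e⟩ | e | e
          · have := hx.inj i (by omega) t₂ h2l e; omega
          · have := hx.inj t₂ h2l t htl e; omega
          · exact hS.off _ e t₂ h2l rfl
        · obtain ⟨j, -, hj, e⟩ := (mem_seg hus).1 h
          have := hx.inj j (by omega) t₂ h2l e; omega)
  refine ⟨t₂, L, E ∪ {z | z ∈ R ∧ ∀ k ≤ l, x k ≠ z}, h2, ⟨by omega, htb, h2, h2l, hL, ?_, ?_,
    (hm _).2 (Or.inl ((hm₁ _).2 (Or.inl (by simpa using hS.zero)))), ?_,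
    fun s' hs' t₃ h3 h3l => hmax s' hs' t₃ h3 h3l, ?_⟩⟩
  · intro z hz
    rcases (hm z).1 hz with h | h
    · rcases (hm₁ z).1 h with h | h
      · rcases hS.sub z (by simpa using h) with ⟨i, hi, e⟩ | e | e
        · exact Or.inl ⟨i, by omega, e⟩
        · exact Or.inl ⟨t, le_rfl, e.symm⟩
        · exact Or.inr (Or.inr (Or.inl e))
      · obtain ⟨j, -, hj, e⟩ := (mem_seg hus).1 h
        exact Or.inl ⟨j, by omega, e⟩
    · obtain ⟨-, h' | h'⟩ := hR.mem z h
      · exact Or.inr (Or.inr (Or.inr ⟨h, h'⟩))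
      · simp at h'
        rcases h' with h' | h'
        · exact Or.inl ⟨s, by omega, h'.symm⟩
        · exact Or.inr (Or.inl h')
  · intro j hj
    exact (hm _).2 (Or.inl ((hm₁ _).2 (Or.inl (by simpa using hS.contains j hj))))
  · rintro z (hz | hz)
    · exact hS.off z hz
    · exact hz.2
  · rintro z (hz | hz) t₃ h3 h3l
    · exact hS.maxE z hz t₃ (by omega) h3l
    · exact hx.bridge_step hs h2l hR hmax z hz.1 hz.2 t₃ h3 h3l

lemma Longest.noncrossing [DecidableEq V] (hx : Longest G T x l) (hT : TwoConn G T) {k : ℕ}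
    (hd : MinDeg G T k) (hk : 2 ≤ k)
    (hno : ∀ i ∈ nbrPos G x l l, ∀ j ∈ nbrPos G x l 0, j ≤ i) :
    ∃ c f, 2 * k ≤ c ∧ ZCyc G c f ∧ (∀ i, f i ∈ (T : Set V)) ∧ RichVertex G f k := by
  classical
  have h1 := hx.card_nbrPos hd (e := 0) (Or.inl rfl)
  have h2 := hx.card_nbrPos hd (e := l) (Or.inr rfl)
  obtain ⟨a, ha, haN⟩ := (nbrPos G x l 0).exists_max_image id (card_pos.1 (by omega))
  obtain ⟨b, hb, hbN⟩ := (nbrPos G x l l).exists_min_image id (card_pos.1 (by omega))
  simp at haN hbN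
  have hab : a ≤ b := hno b hb a ha
  have ha0 : 0 < a := by
    rcases Nat.eq_zero_or_pos a with rfl | h
    · exact absurd rfl (mem_nbrPos.1 ha).2.ne
    · exact h
  have hbl : b < l := by
    rcases lt_or_eq_of_le (mem_nbrPos.1 hb).1 with h | h
    · exact h
    · exact absurd (congrArg x h.symm) (mem_nbrPos.1 hb).2.ne
  -- the first bridge
  obtain ⟨t, s, hs, h2', h2l, ⟨R, hR⟩, hmax⟩ := hx.exists_bridge hT ha0 (by omega)
  obtain ⟨s', hs', hs'min⟩ := ((nbrPos G x l 0).filter (s < ·)).exists_min_image id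
    ⟨a, by simp [ha, hs]⟩
  simp at hs' hs'min
  have hs'a : s' ≤ a := haN s' hs'.1
  have hj := (hx.pth_seg hs'a (by omega)).reverse.join (hx.pth_seg (Nat.zero_le s) (by omega))
    (mem_nbrPos.1 hs'.1).2.symm (by
      intro z hz hz'
      simp at hz
      obtain ⟨i, h3, h4, rfl⟩ := (mem_seg hs'a).1 hz
      obtain ⟨j, h5, h6, e⟩ := (mem_seg (Nat.zero_le s)).1 hz'
      have := hx.inj j (by omega) i (by omega) e
      omega)
  obtain ⟨L, hL, hm⟩ := hj.glue' (hR.mono (offSet_subset _)) (by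
    intro z hz hz'
    have hzp : ∃ i, i ≤ a ∧ x i = z := by
      rcases List.mem_append.1 hz with h | h
      · simp at h
        obtain ⟨i, -, h4, e⟩ := (mem_seg hs'a).1 h
        exact ⟨i, h4, e⟩
      · obtain ⟨j, -, h6, e⟩ := (mem_seg (Nat.zero_le s)).1 h
        exact ⟨j, by omega, e⟩
    obtain ⟨i, hi, rfl⟩ := hzp
    obtain ⟨-, h' | h'⟩ := hR.mem _ hz'
    · exact absurd rfl (h' i (by omega))
    · simp at h'
      rcases h' with h' | h'
      · exact h'
      · have := hx.inj i (by omega) t h2l h'; omega)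
  have hcont : ∀ j, j ∈ nbrPos G x l 0 ∨ j = 0 → x j ∈ L := by
    intro j hj'
    apply (hm _).2 (Or.inl _)
    simp
    rcases Nat.lt_or_ge s j with h | h
    · rcases hj' with hj' | hj'
      · exact Or.inl ((mem_seg hs'a).2 ⟨j, hs'min j hj' h, haN j hj', rfl⟩)
      · omega
    · exact Or.inr ((mem_seg (Nat.zero_le s)).2 ⟨j, Nat.zero_le j, h, rfl⟩)
  have hS : DState G T x l a b a t L {z | z ∈ R ∧ ∀ k ≤ l, x k ≠ z} := by
    refine ⟨le_rfl, hab, h2', h2l, hL, ?_, fun j hj' => hcont j (Or.inl hj'), hcont 0 (Or.inr rfl),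
      fun z hz => hz.2, hmax, fun z hz => hx.bridge_step hs h2l hR hmax z hz.1 hz.2⟩
    intro z hz
    rcases (hm z).1 hz with h | h
    · rcases List.mem_append.1 h with h | h
      · simp at h
        obtain ⟨i, -, h4, e⟩ := (mem_seg hs'a).1 h
        exact Or.inl ⟨i, h4, e⟩
      · obtain ⟨j, -, h6, e⟩ := (mem_seg (Nat.zero_le s)).1 h
        exact Or.inl ⟨j, by omega, e⟩
    · obtain ⟨-, h' | h'⟩ := hR.mem z h
      · exact Or.inr (Or.inr ⟨h, h'⟩)
      · simp at h'
        rcases h' with h' | h'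
        · exact Or.inl ⟨s, by omega, h'.symm⟩
        · exact Or.inr (Or.inl h')
  suffices H : ∀ m u t Q E, l - t = m → DState G T x l a b u t Q E →
      ∃ c f, 2 * k ≤ c ∧ ZCyc G c f ∧ (∀ i, f i ∈ (T : Set V)) ∧ RichVertex G f k from H _ _ _ _ _ rfl hS
  intro m
  induction m using Nat.strong_induction_on with
  | _ m ih =>
  intro u t Q E hm' hS'
  rcases Nat.lt_or_ge b t with h | h
  · exact hx.finish hd hk haN hb hbN hab hS' h
  · obtain ⟨t₂, Q', E', h3, hS''⟩ := hx.next_state hT hS' h hbl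
    have := hS''.htl
    exact ih (l - t₂) (by omega) _ _ _ _ rfl hS''

lemma Longest.crossing [DecidableEq V] (hx : Longest G T x l) (hT : TwoConn G T) {k : ℕ}
    (hd : MinDeg G T k) (hk : 2 ≤ k) (hc : 2 * k ≤ T.card) {i₀ j₀ : ℕ}
    (hi₀ : i₀ ∈ nbrPos G x l l) (hj₀ : j₀ ∈ nbrPos G x l 0) (hij₀ : i₀ < j₀) :
    ∃ c f, 2 * k ≤ c ∧ ZCyc G c f ∧ (∀ i, f i ∈ (T : Set V)) ∧ RichVertex G f k := by
  classical
  set Pr := ((nbrPos G x l l) ×ˢ (nbrPos G x l 0)).filter fun p => p.1 < p.2
  obtain ⟨⟨i, j⟩, hp, hmin⟩ := Pr.exists_min_image (fun p => p.2 - p.1)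
    ⟨(i₀, j₀), by simp [Pr, hi₀, hj₀, hij₀]⟩
  simp [Pr] at hp hmin
  obtain ⟨⟨hi, hj⟩, hij⟩ := hp
  have hjl := (mem_nbrPos.1 hj).1
  have hadj := (mem_nbrPos.1 hi).2.symm
  have hclose := (mem_nbrPos.1 hj).2.symm
  have hL := (hx.pth_seg (Nat.zero_le i) (by omega)).join (hx.pth_seg hjl le_rfl).reverse hadj (by
    intro z hz hz'
    simp at hz'
    obtain ⟨p, -, h1, rfl⟩ := (mem_seg (Nat.zero_le i)).1 hz
    obtain ⟨q, h2, h3, e⟩ := (mem_seg hjl).1 hz'
    have := hx.inj q h3 p (by omega) e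
    omega)
  have hNc : k ≤ ((nbrPos G x l l).image x).card := by
    rw [card_image_of_injOn (fun p hp q hq e =>
      hx.inj p (mem_nbrPos.1 hp).1 q (mem_nbrPos.1 hq).1 e)]
    exact hx.card_nbrPos hd (Or.inr rfl)
  have hmemL : ∀ p ≤ l, (p ≤ i ∨ j ≤ p) → x p ∈ seg x 0 i ++ (seg x j l).reverse := by
    intro p hp hor
    simp
    rcases hor with h | h
    · exact Or.inl ((mem_seg (Nat.zero_le i)).2 ⟨p, Nat.zero_le p, h, rfl⟩)
    · exact Or.inr ((mem_seg hjl).2 ⟨p, h, hp, rfl⟩)
  rcases Nat.lt_or_ge (i + 1) j with hgap | hgap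
  · set A := ((nbrPos G x l 0).erase j).image (· - 1) with hA
    set Nl := nbrPos G x l l with hNl
    have hpos : ∀ a ∈ nbrPos G x l 0, 0 < a := by
      intro a ha
      rcases Nat.eq_zero_or_pos a with rfl | h
      · exact absurd rfl (mem_nbrPos.1 ha).2.ne
      · exact h
    have hAspec : ∀ q ∈ A, (q + 1 ≤ l ∧ q ∉ Nl) ∧ (q ≤ i ∨ j ≤ q) := by
      intro q hq
      simp [hA] at hq
      obtain ⟨a, ⟨haj, ha⟩, rfl⟩ := hq
      have := hpos a ha
      have hal := (mem_nbrPos.1 ha).1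
      refine ⟨⟨by omega, fun h => ?_⟩, ?_⟩
      · have := hmin (a - 1) a h ha (by omega); omega
      · by_contra h
        have := hmin i a hi ha (by omega); omega
    have hAc : (nbrPos G x l 0).card ≤ A.card + 1 := by
      rw [hA, card_image_of_injOn]
      · rw [card_erase_of_mem hj]; omega
      · intro a ha b hb e
        simp at ha hb e
        have := hpos a ha.1; have := hpos b hb.1
        omega
    have hd1 : Disjoint A Nl := disjoint_left.2 fun q hq => (hAspec q hq).1.2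
    have hl1 : l ∉ A ∪ Nl := by
      simp
      exact ⟨fun h => by have := (hAspec l h).1.1; omega, fun h => (mem_nbrPos.1 h).2.ne rfl⟩
    have h1 := hx.card_nbrPos hd (e := 0) (Or.inl rfl)
    have h2 := hx.card_nbrPos hd (e := l) (Or.inr rfl)
    have hle : ∀ p ∈ insert l (A ∪ Nl), p ≤ l ∧ (p ≤ i ∨ j ≤ p) := by
      intro p hp
      simp at hp
      rcases hp with rfl | hp | hp
      · exact ⟨le_rfl, Or.inr hjl⟩
      · have := hAspec p hp; exact ⟨by omega, this.2⟩
      · refine ⟨(mem_nbrPos.1 hp).1, ?_⟩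
        by_contra h
        have := hmin p j hp hj (by omega); omega
    have hFc : 2 * k ≤ ((insert l (A ∪ Nl)).image x).card := by
      rw [card_image_of_injOn (fun p hp q hq e => hx.inj p (hle p hp).1 q (hle q hq).1 e),
        card_insert_of_notMem hl1, card_union_of_disjoint hd1]
      rw [hNl] at *
      omega
    refine close_cycle hL hclose (F := (insert l (A ∪ Nl)).image x) ?_ hFc (by omega)
      (mem_image_of_mem x (mem_insert_self _ _)) hNc (fun w hw => by
        obtain ⟨p, hp, rfl⟩ := mem_image.1 hw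
        exact ⟨(mem_nbrPos.1 hp).2, mem_image_of_mem x (mem_insert_of_mem (mem_union_right _ hp))⟩)
    intro w hw
    obtain ⟨p, hp, rfl⟩ := mem_image.1 hw
    exact hmemL p (hle p hp).1 (hle p hp).2
  · refine close_cycle hL hclose (F := T) ?_ hc (by omega) (e := x l)
      (by exact_mod_cast hx.mem l le_rfl) hNc (fun w hw => by
        obtain ⟨p, hp, rfl⟩ := mem_image.1 hw
        exact ⟨(mem_nbrPos.1 hp).2, by exact_mod_cast hx.mem p (mem_nbrPos.1 hp).1⟩)
    by_contra hno
    push Not at hno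
    obtain ⟨w, hw, hwL⟩ := hno
    obtain ⟨R, hR⟩ := hT.conn.pth (u := x 0) (v := w) (by exact_mod_cast hx.mem 0 (Nat.zero_le l))
      (by exact_mod_cast hw)
    obtain ⟨A, z, B, e, hz, hB⟩ := exists_last (L := R)
      (p := fun v => v ∈ seg x 0 i ++ (seg x j l).reverse)
      ⟨x 0, hR.head_mem, hmemL 0 (Nat.zero_le l) (Or.inl (Nat.zero_le i))⟩
    subst e
    cases B with
    | nil =>
      have := hR.last
      simp at this
      subst this
      exact hwL hz
    | cons y B =>
      have hzy : G.Adj z y := by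
        have := (List.isChain_split.1 hR.chain).2
        rw [List.isChain_cons_cons] at this
        exact this.1
      have hyL := hB y (by simp)
      obtain ⟨C, D, eL⟩ := List.append_of_mem hz
      rw [eL] at hL hyL
      have hlen : l + 1 ≤ C.length + (D.length + 1) := by
        have := congrArg List.length eL
        simp [seg] at this
        omega
      have hyT : y ∈ (T : Set V) := hR.mem y (by simp)
      have hzD := hL.dropTo
      cases C with
      | nil =>
        have := (hzD.reverse.snoc hyT hzy (by simp at hyL ⊢; tauto)).toPathLen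
        have := hx.max _ _ _ this
        simp at this hlen
        omega
      | cons c C =>
        have hC : Pth G (T : Set V) (x 0) ((c :: C).getLast (by simp)) (c :: C) := by
          refine ⟨?_, List.getLast?_eq_some_getLast _, hL.nodup.sublist (List.sublist_append_left _ _),
            (List.isChain_append.1 hL.chain).1, fun v hv => hL.mem v (List.mem_append_left _ hv)⟩
          simpa using hL.head
        have hj' := (hzD.join hC hclose (fun v hv hv' => by
          have := (List.nodup_append.1 hL.nodup).2.2 v hv' v hv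
          exact this rfl)).reverse.snoc hyT ?_ (by simp at hyL ⊢; tauto)
        · have := hx.max _ _ _ hj'.toPathLen
          simp at this hlen
          omega
        · exact hzy

/-- Dirac's circumference bound, with a vertex of large degree on the cycle. -/
theorem exists_cycle_rich [DecidableEq V] {k : ℕ} (hT : TwoConn G T) (hd : MinDeg G T k)
    (hk : 2 ≤ k) (hc : 2 * k ≤ T.card) :
    ∃ c f, 2 * k ≤ c ∧ ZCyc G c f ∧ (∀ i, f i ∈ T) ∧ RichVertex G f k := by
  obtain ⟨x, l, hx⟩ := exists_longest (G := G)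
    (card_pos.1 (by have := hT.three_le; omega) : T.Nonempty)
  obtain ⟨c, f, h1, h2, h3, h4⟩ : ∃ c f, 2 * k ≤ c ∧ ZCyc G c f ∧ (∀ i, f i ∈ (T : Set V)) ∧ RichVertex G f k := by
    by_cases h : ∀ i ∈ nbrPos G x l l, ∀ j ∈ nbrPos G x l 0, j ≤ i
    · exact hx.noncrossing hT hd hk h
    · push Not at h
      obtain ⟨i, hi, j, hj, hij⟩ := h
      exact hx.crossing hT hd hk hc hi hj hij
  exact ⟨c, f, h1, h2, fun i => by exact_mod_cast h3 i, h4⟩

/-- Dirac's circumference bound. -/
theorem exists_cycle_ge [DecidableEq V] {k : ℕ} (hT : TwoConn G T) (hd : MinDeg G T k)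
    (hk : 2 ≤ k) (hc : 2 * k ≤ T.card) :
    ∃ c f, 2 * k ≤ c ∧ ZCyc G c f ∧ ∀ i, f i ∈ T := by
  obtain ⟨c, f, h1, h2, h3, -⟩ := exists_cycle_rich hT hd hk hc
  exact ⟨c, f, h1, h2, h3⟩

end Vale.Agent.P048
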