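import Vale.Agent.P048.Alpha

/-!
Neighbourhood expansion in critical sets.
-/

namespace Vale.Agent.P048

open Finset

variable {V : Type*} {G : SimpleGraph V}

open scoped Classical in
/-- The closed neighbourhood of `X` inside `S`. -/
noncomputable def closedNbr (G : SimpleGraph V) (S X : Finset V) : Finset V :=
  S.filter (fun v => v ∈ X ∨ ∃ x ∈ X, G.Adj x v)

lemma mem_closedNbr {S X : Finset V} {v : V} :
    v ∈ closedNbr G S X ↔ v ∈ S ∧ (v ∈ X ∨ ∃ x ∈ X, G.Adj x v) := by
  classical
  simp [closedNbr]

variable [DecidableEq V]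

/-- In a critical set the closed neighbourhood of a nonempty set is large. -/
theorem Crit.closedNbr_card {S X : Finset V} {c : ℕ} (h : Crit G S c) (hX : X ⊆ S)
    (hne : X.Nonempty) : c * aNum G X + 1 ≤ (closedNbr G S X).card := by
  classical
  have hT : S \ closedNbr G S X ⊆ S := Finset.sdiff_subset
  have hd : Disjoint X (S \ closedNbr G S X) := by
    rw [Finset.disjoint_left]
    intro x hx hx'
    simp [mem_closedNbr] at hx'
    exact (hx'.2 hx'.1).1 hx
  have hac : AntiCompl G X (S \ closedNbr G S X) := by
    intro a ha b hb hab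
    simp [mem_closedNbr] at hb
    exact (hb.2 hb.1).2 a ha hab
  have h1 := aNum_add_le hX hT hd hac
  have h2 := aNum_pos (G := G) hne
  have h3 := h.sub _ hT (by omega)
  have h4 := Nat.mul_le_mul_left c h1
  rw [Nat.mul_add] at h4
  have h5 := Finset.card_sdiff_add_card_eq_card
    (show closedNbr G S X ⊆ S from fun v hv => (mem_closedNbr.1 hv).1)
  have h6 := h.card_eq
  omega

omit [DecidableEq V] in
lemma aNum_of_indep {I : Finset V} (hI : G.IsIndepSet (I : Set V)) : aNum G I = I.card :=
  le_antisymm (aNum_le fun J hJ _ => Finset.card_le_card (by exact_mod_cast hJ))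
    (card_le_aNum subset_rfl hI)

/-- The version for independent sets. -/
theorem Crit.closedNbr_card_indep {S I : Finset V} {c : ℕ} (h : Crit G S c) (hI : I ⊆ S)
    (hIi : G.IsIndepSet (I : Set V)) (hne : I.Nonempty) :
    c * I.card + 1 ≤ (closedNbr G S I).card := by
  simpa [aNum_of_indep hIi] using h.closedNbr_card hI hne

end Vale.Agent.P048
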