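import Vale.Agent.P048.Chord
import Vale.Agent.P048.Alpha

/-!
Breadth-first layers, and long cycles inside one layer.
-/

namespace Vale.Agent.P048

variable {V : Type*} {G : SimpleGraph V}

/-- A breadth-first rooted structure on `H`. -/
structure BFS (G : SimpleGraph V) (H : Finset V) (r : V) (d : V → ℕ) (par : V → V) : Prop where
  root_mem : r ∈ H
  root_zero : d r = 0
  eq_root : ∀ v ∈ H, d v = 0 → v = r
  step : ∀ v ∈ H, 0 < d v → par v ∈ H ∧ d (par v) + 1 = d v ∧ G.Adj v (par v)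
  edge : ∀ u ∈ H, ∀ v ∈ H, G.Adj u v → d u ≤ d v + 1

lemma exists_bfs {H : Finset V} {r : V} {a : ℕ} (hr : r ∈ H)
    (hd : ∀ v ∈ H, ∃ n ≤ a, PathLen G (H : Set V) r v n) :
    ∃ d par, BFS G H r d par ∧ ∀ v ∈ H, d v ≤ a := by
  classical
  have hex : ∀ v ∈ H, ∃ n, PathLen G (H : Set V) r v n := fun v hv => by
    obtain ⟨n, -, h⟩ := hd v hv; exact ⟨n, h⟩
  let d : V → ℕ := fun v => if h : v ∈ H then Nat.find (hex v h) else 0
  have dspec : ∀ v ∈ H, PathLen G (H : Set V) r v (d v) := fun v hv => by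
    simp only [d, dif_pos hv]; exact Nat.find_spec (hex v hv)
  have dmin : ∀ v ∈ H, ∀ n, PathLen G (H : Set V) r v n → d v ≤ n := fun v hv n hn => by
    simp only [d, dif_pos hv]; exact Nat.find_le hn
  have edge : ∀ u ∈ H, ∀ v ∈ H, G.Adj u v → d u ≤ d v + 1 := by
    intro u hu v hv huv
    obtain ⟨n, hn, hp⟩ := pathLen_snoc (dspec v hv) (w := u) hu huv.symm
    exact le_trans (dmin u hu n hp) hn
  have par_ex : ∀ v ∈ H, 0 < d v → ∃ w ∈ H, d w + 1 = d v ∧ G.Adj v w := by
    intro v hv hpos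
    obtain ⟨p, p0, pn, pi, padj, pm⟩ := dspec v hv
    have hw : p (d v - 1) ∈ H := pm _ (by omega)
    have h1 : d (p (d v - 1)) ≤ d v - 1 := by
      apply dmin _ hw
      have := pathLen_prefix (G := G) (S := (H : Set V)) (n := d v) (i := d v - 1) (by omega)
        pi padj (fun j hj => pm j (by omega))
      rwa [p0] at this
    have h2 : G.Adj (p (d v - 1)) v := by
      have := padj (d v - 1) (by omega)
      have e : d v - 1 + 1 = d v := by omega
      rwa [e, pn] at this
    have h3 := edge v hv _ hw h2.symm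
    exact ⟨_, hw, by omega, h2.symm⟩
  let par : V → V := fun v => if h : v ∈ H ∧ 0 < d v then (par_ex v h.1 h.2).choose else v
  refine ⟨d, par, ⟨hr, ?_, ?_, ?_, edge⟩, ?_⟩
  · exact Nat.le_zero.1 (dmin r hr 0 (pathLen_refl hr))
  · intro v hv h0
    obtain ⟨p, p0, pn, -⟩ := dspec v hv
    rw [← pn, h0, p0]
  · intro v hv hpos
    have := (par_ex v hv hpos).choose_spec
    simp only [par, dif_pos (And.intro hv hpos)]
    exact this
  · intro v hv
    obtain ⟨n, hn, hp⟩ := hd v hv
    exact le_trans (dmin v hv n hp) hn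

variable {H : Finset V} {r : V} {d : V → ℕ} {par : V → V}

lemma BFS.iterate (hB : BFS G H r d par) {z : V} (hz : z ∈ H) :
    ∀ j ≤ d z, par^[j] z ∈ H ∧ d (par^[j] z) + j = d z := by
  intro j
  induction j with
  | zero => simp [hz]
  | succ j ih =>
    intro hj
    obtain ⟨h1, h2⟩ := ih (by omega)
    obtain ⟨g1, g2, -⟩ := hB.step _ h1 (by omega)
    rw [Function.iterate_succ_apply']
    exact ⟨g1, by omega⟩

lemma BFS.tree_path (hB : BFS G H r d par) {z : V} (hz : z ∈ H) {j : ℕ} (hj : j ≤ d z) :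
    PathLen G {w | ∃ i ≤ j, par^[i] z = w} z (par^[j] z) j := by
  refine ⟨fun i => par^[i] z, rfl, rfl, ?_, ?_, fun i hi => ⟨i, hi, rfl⟩⟩
  · intro i hi i' hi' he
    have h1 := (hB.iterate hz i (by omega)).2
    have h2 := (hB.iterate hz i' (by omega)).2
    simp only at he
    rw [he] at h1
    omega
  · intro i hi
    obtain ⟨h1, h2⟩ := hB.iterate hz i (by omega)
    have := (hB.step _ h1 (by omega)).2.2
    show G.Adj (par^[i] z) (par^[i + 1] z)
    rw [Function.iterate_succ_apply']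
    exact this

/-- An even chord exists in a long cycle when the independence number is small. -/
lemma ZCyc.exists_even_chord {S : Set V} {a c : ℕ} {f : ℤ → V} (hc : ZCyc G c f)
    (hS : ∀ i, f i ∈ S) (ha : IndBound G S a) (hac : 2 * a + 2 ≤ c) :
    ∃ (u : ℤ) (s : ℕ), 2 ≤ s ∧ s + 2 ≤ c ∧ Even s ∧ G.Adj (f u) (f (u + s)) := by
  classical
  by_contra hno
  push Not at hno
  have hinj : Set.InjOn (fun i : ℕ => f ((2 * i : ℕ) : ℤ)) (Finset.range (a + 1) : Set ℕ) := by
    intro i hi j hj he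
    simp at hi hj
    have := hc.eq_of_lt he (by omega) (by omega)
    omega
  have := ha ((Finset.range (a + 1)).image (fun i : ℕ => f ((2 * i : ℕ) : ℤ))) ?_ ?_
  · rw [Finset.card_image_of_injOn hinj] at this
    simp at this
  · intro x hx
    simp only [Finset.coe_image, Set.mem_image] at hx
    obtain ⟨i, -, rfl⟩ := hx
    exact hS _
  · intro x hx y hy hne hadj
    simp only [Finset.coe_image, Set.mem_image, Finset.coe_range, Set.mem_Iio] at hx hy
    obtain ⟨i, hi, rfl⟩ := hx
    obtain ⟨j, hj, rfl⟩ := hy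
    rcases lt_trichotomy i j with h | h | h
    · refine hno ((2 * i : ℕ) : ℤ) (2 * (j - i)) (by omega) (by omega) (by simp) ?_
      have e : ((2 * i : ℕ) : ℤ) + ((2 * (j - i) : ℕ) : ℤ) = ((2 * j : ℕ) : ℤ) := by omega
      rw [e]; exact hadj
    · exact hne (by rw [h])
    · refine hno ((2 * j : ℕ) : ℤ) (2 * (i - j)) (by omega) (by omega) (by simp) ?_
      have e : ((2 * j : ℕ) : ℤ) + ((2 * (i - j) : ℕ) : ℤ) = ((2 * i : ℕ) : ℤ) := by omega
      rw [e]; exact hadj.symm

/-- A long cycle inside one layer gives a cycle of length `m`, apart from one wheel case. -/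
lemma BFS.layer_cycle (hB : BFS G H r d par) {m a h c : ℕ} (hnc : ¬ HasCyc G m)
    (ha : IndBound G {v | v ∈ H ∧ d v = h} a) (hh : 1 ≤ h) (hhm : 2 * h + 1 ≤ m) {f : ℤ → V}
    (hc : ZCyc G c f) (hfH : ∀ i, f i ∈ H) (hfh : ∀ i, d (f i) = h) (hca : 2 * a + 2 ≤ c)
    (hcm : m ≤ c + 2) : c + 2 = m ∧ ∃ p ∈ H, d p + 1 = h ∧ ∀ i, G.Adj p (f i) := by
  classical
  have hfix : ∀ i, par^[h] (f i) = r := by
    intro i
    obtain ⟨h1, h2⟩ := hB.iterate (hfH i) h (le_of_eq (hfh i).symm)
    exact hB.eq_root _ h1 (by have := hfh i; omega)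
  have hex : ∃ j, ∀ i, par^[j] (f i) = par^[j] (f 0) := ⟨h, fun i => by rw [hfix, hfix]⟩
  obtain ⟨h', hsame, hmin⟩ : ∃ h', (∀ i, par^[h'] (f i) = par^[h'] (f 0)) ∧
      ∀ j < h', ¬ ∀ i, par^[j] (f i) = par^[j] (f 0) :=
    ⟨Nat.find hex, Nat.find_spec hex, fun j hj => Nat.find_min hex hj⟩
  have hle : h' ≤ h := by
    by_contra hlt
    exact hmin h (by omega) (fun i => by rw [hfix, hfix])
  have h1 : 1 ≤ h' := by
    by_contra h0
    have h0' : h' = 0 := by omega
    subst h0'
    have := hc.eq_of_lt (hsame 1) (by have := hc.three_le; omega) (by have := hc.three_le; omega)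
    omega
  by_cases hwheel : c + 2 = m ∧ h' = 1
  · obtain ⟨hcm', rfl⟩ := hwheel
    refine ⟨hcm', par (f 0), ?_, ?_, ?_⟩
    · exact (hB.step _ (hfH 0) (by have := hfh 0; omega)).1
    · have := (hB.step _ (hfH 0) (by have := hfh 0; omega)).2.1
      rw [hfh 0] at this; exact this
    · intro i
      have := (hB.step _ (hfH i) (by have := hfh i; omega)).2.2
      have e : par (f i) = par (f 0) := by simpa using hsame i
      rw [← e]; exact this.symm
  exfalso
  obtain ⟨j0, hj0⟩ := not_forall.1 (hmin (h' - 1) (by omega))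
  obtain ⟨u, s, hs2, hsc, hse, hadj⟩ := hc.exists_even_chord (S := {v | v ∈ H ∧ d v = h}) (fun i => ⟨hfH i, hfh i⟩) ha hca
  obtain ⟨i, j, hij, hpath⟩ := hc.cross_paths (fun v => par^[h' - 1] v = par^[h' - 1] (f 0))
    ⟨0, j0, rfl, hj0⟩ hs2 hsc hse hadj (l := m - 2 * h') (by omega) (by omega)
  have hne : par^[h' - 1] (f i) ≠ par^[h' - 1] (f j) := by
    intro he
    simp only [he, iff_self, not_true_eq_false] at hij
  have P1 := hB.tree_path (hfH j) (j := h') (by rw [hfh]; exact hle)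
  have P2 := (hB.tree_path (hfH i) (j := h') (by rw [hfh]; exact hle)).reverse
  rw [hsame j] at P1
  rw [hsame i] at P2
  have lev : ∀ (t : ℤ), ∀ q ≤ h', d (par^[q] (f t)) + q = h := fun t q hq => by
    rw [(hB.iterate (hfH t) q (by rw [hfh]; omega)).2, hfh]
  have hdisj : ∀ x, (∃ q ≤ h', par^[q] (f j) = x) → (∃ q ≤ h', par^[q] (f i) = x) →
      x = par^[h'] (f 0) := by
    rintro x ⟨q, hq, rfl⟩ ⟨q', hq', he⟩
    have h1 := lev j q hq
    have h2 := lev i q' hq'
    rw [he] at h2
    have hqq : q' = q := by omega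
    subst hqq
    by_cases hqh : q' = h'
    · subst hqh; exact hsame j
    · exfalso
      apply hne
      have e : h' - 1 = (h' - 1 - q') + q' := by omega
      rw [e, Function.iterate_add_apply, Function.iterate_add_apply, he]
  have Q := P1.append P2 hdisj
  have := hpath.close Q (by omega) (by omega) (by omega) (by
    rintro x ⟨t, rfl⟩ hx
    rcases hx with ⟨q, hq, he⟩ | ⟨q, hq, he⟩
    · have h1 := lev j q hq
      rw [he, hfh] at h1
      have : q = 0 := by omega
      subst this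
      exact Or.inr he.symm
    · have h1 := lev i q hq
      rw [he, hfh] at h1
      have : q = 0 := by omega
      subst this
      exact Or.inl he.symm)
  apply hnc
  have e : m - 2 * h' + (h' + h') = m := by omega
  rwa [e] at this

/-- The first vertex of a path in a given set. -/
lemma first_hit {S X : Set V} {u v : V} {n : ℕ} (h : PathLen G S u v n) (hv : v ∈ X) :
    ∃ w ∈ X, ∃ i ≤ n, PathLen G {x | x ∈ S ∧ (x ∈ X → x = w)} u w i := by
  classical
  obtain ⟨p, p0, pn, pi, padj, pm⟩ := h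
  have hex : ∃ i, i ≤ n ∧ p i ∈ X := ⟨n, le_rfl, pn ▸ hv⟩
  obtain ⟨i, hin, hiX, hmin⟩ : ∃ i, i ≤ n ∧ p i ∈ X ∧ ∀ j < i, ¬ (j ≤ n ∧ p j ∈ X) :=
    ⟨Nat.find hex, (Nat.find_spec hex).1, (Nat.find_spec hex).2, fun j hj => Nat.find_min hex hj⟩
  refine ⟨p i, hiX, i, hin, ?_⟩
  have := pathLen_prefix (G := G) (S := {x | x ∈ S ∧ (x ∈ X → x = p i)}) hin pi padj
    (fun j hj => ⟨pm j (by omega), fun hjX => by
      rcases eq_or_lt_of_le hj with rfl | hlt
      · rfl
      · exact absurd ⟨by omega, hjX⟩ (hmin j hlt)⟩)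
  rwa [p0] at this

/-- A cycle with a hub: paths of every length between two rim vertices. -/
lemma ZCyc.wheel_path {c : ℕ} {f : ℤ → V} (hc : ZCyc G c f) {p : V} (hp : p ∉ Set.range f)
    (hub : ∀ i, G.Adj p (f i)) {u : ℤ} {D t : ℕ} (hD1 : 1 ≤ D) (hD : D < c) (ht : 2 ≤ t)
    (htc : t ≤ c) : PathLen G (insert p (Set.range f)) (f u) (f (u + D)) t := by
  obtain ⟨x, y, hxy, hx, hy⟩ : ∃ x y : ℕ, x + 2 + y = t ∧ x + D < c ∧ y < D :=
    ⟨min (t - 2) (c - D - 1), t - 2 - min (t - 2) (c - D - 1), by omega, by omega, by omega⟩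
  have P1 := hc.path_down u x (by omega)
  have P2 := hc.path_up (u + D - y) y (by omega)
  have e : u + (D:ℤ) - y + (y:ℕ) = u + D := by omega
  rw [e] at P2
  have hne : ∀ i, f i ≠ p := fun i h => hp ⟨i, h⟩
  have S1 := P1.append (pathLen_edge_pair (hub (u - x)).symm) (by
    rintro z ⟨i, -, -, rfl⟩ hz
    rcases hz with hz | hz
    · exact hz
    · exact absurd hz (hne i))
  have S2 := S1.append (pathLen_edge_pair (hub (u + D - y))) (by
    intro z hz hz'
    rcases hz with ⟨i, hi1, hi2, rfl⟩ | hz | hz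
    · rcases hz' with hz' | hz'
      · exact absurd hz' (hne i)
      · have := hc.eq_of_lt hz' (by omega) (by omega)
        omega
    · rcases hz' with hz' | hz'
      · exact absurd (hz.symm.trans hz') (hne _)
      · have := hc.eq_of_lt (hz.symm.trans hz') (by omega) (by omega)
        omega
    · exact hz)
  have e2 : x + 1 + 1 + y = t := by omega
  rw [← e2]
  refine S2.append' P2 ?_ ?_
  · rintro z hz ⟨i, hi1, hi2, rfl⟩
    rcases hz with (⟨j, hj1, hj2, hz⟩ | hz | hz) | hz | hz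
    · have := hc.eq_of_lt hz (by omega) (by omega)
      omega
    · have := hc.eq_of_lt hz (by omega) (by omega)
      omega
    · exact absurd hz (hne i)
    · exact absurd hz (hne i)
    · exact hz
  · intro z hz
    rcases hz with ((⟨j, -, -, rfl⟩ | hz | hz) | hz | hz) | ⟨j, -, -, rfl⟩
    · exact Or.inr ⟨j, rfl⟩
    · exact Or.inr ⟨_, hz.symm⟩
    · exact Or.inl hz
    · exact Or.inl hz
    · exact Or.inr ⟨_, hz.symm⟩
    · exact Or.inr ⟨j, rfl⟩

/-- The subgraph of edges inside `T`. -/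
def insideGraph (G : SimpleGraph V) (T : Set V) : SimpleGraph V :=
  SimpleGraph.fromRel (fun u v => G.Adj u v ∧ u ∈ T ∧ v ∈ T)

lemma insideGraph_adj {T : Set V} {u v : V} :
    (insideGraph G T).Adj u v ↔ G.Adj u v ∧ u ∈ T ∧ v ∈ T := by
  simp only [insideGraph, SimpleGraph.fromRel_adj]
  constructor
  · rintro ⟨-, h | h⟩
    · exact h
    · exact ⟨h.1.symm, h.2.2, h.2.1⟩
  · intro h; exact ⟨h.1.ne, Or.inl h⟩

lemma PathLen.inside {T S : Set V} {u v : V} {n : ℕ} (h : PathLen G S u v n) (hST : S ⊆ T) :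
    PathLen (insideGraph G T) S u v n := by
  obtain ⟨p, p0, pn, pi, padj, pm⟩ := h
  exact ⟨p, p0, pn, pi, fun i hi =>
    insideGraph_adj.2 ⟨padj i hi, hST (pm i (by omega)), hST (pm (i + 1) hi)⟩, pm⟩

lemma HasCyc.inside_zcyc {T : Set V} {n : ℕ} (h : HasCyc (insideGraph G T) n) :
    ∃ f : ℤ → V, ZCyc G n f ∧ ∀ i, f i ∈ T := by
  obtain ⟨hn, g, ginj, gadj, glast⟩ := h
  have hn0 : (0:ℤ) < n := by omega
  have hmem : ∀ i < n, g i ∈ T := by
    intro i hi
    by_cases h : i + 1 < n
    · exact (insideGraph_adj.1 (gadj i h)).2.1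
    · have : i = n - 1 := by omega
      subst this
      exact (insideGraph_adj.1 glast).2.1
  have hr : ∀ i : ℤ, (i % (n:ℤ)).toNat < n := by
    intro i
    have := Int.emod_lt_of_pos i hn0
    have := Int.emod_nonneg i hn0.ne'
    omega
  refine ⟨fun i => g (i % (n:ℤ)).toNat, ⟨hn, ?_, ?_, ?_⟩, fun i => hmem _ (hr i)⟩
  · intro i; show g ((i + (n:ℤ)) % (n:ℤ)).toNat = _; rw [Int.add_emod_right]
  · intro i j h
    have := ginj _ (hr i) _ (hr j) h
    have h1 := Int.emod_nonneg i hn0.ne'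
    have h2 := Int.emod_nonneg j hn0.ne'
    exact Int.ModEq.dvd (show (j % (n:ℤ)) = i % (n:ℤ) by omega)
  · intro i
    show G.Adj (g (i % (n:ℤ)).toNat) (g ((i + 1) % (n:ℤ)).toNat)
    have h1 := Int.emod_nonneg i hn0.ne'
    have h2 := Int.emod_lt_of_pos i hn0
    by_cases h : (i % (n:ℤ)).toNat + 1 < n
    · have e : ((i + 1) % (n:ℤ)).toNat = (i % (n:ℤ)).toNat + 1 := by
        rw [← Int.emod_add_emod, Int.emod_eq_of_lt (by omega) (by omega)]
        omega
      rw [e]; exact (insideGraph_adj.1 (gadj _ h)).1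
    · have e : ((i + 1) % (n:ℤ)).toNat = 0 := by
        rw [← Int.emod_add_emod]
        have : i % (n:ℤ) + 1 = (n:ℤ) := by omega
        rw [this]; simp
      have e' : (i % (n:ℤ)).toNat = n - 1 := by omega
      rw [e, e']; exact (insideGraph_adj.1 glast).1

/-- No big two-connected piece with a long cycle inside one layer. -/
theorem BFS.no_layer_piece [DecidableEq V] (hB : BFS G H r d par) {m a h c : ℕ}
    (hnc : ¬ HasCyc G m)
    (ha : IndBound G {v | v ∈ H ∧ d v = h} a) (hh : 1 ≤ h) (hhm : 2 * h + 1 ≤ m) {T : Finset V}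
    (hTH : T ⊆ H) (hTh : ∀ v ∈ T, d v = h) (hT : TwoConn G T) {f : ℤ → V} (hc : ZCyc G c f)
    (hfT : ∀ i, f i ∈ T) (hca : 2 * a + 2 ≤ c) (hcm : m ≤ c + 2)
    (hbig : m ≤ T.card + 1) : False := by
  classical
  obtain ⟨hcm', p, hpH, hpd, hub⟩ := hB.layer_cycle hnc ha hh hhm hc (fun i => hTH (hfT i))
    (fun i => hTh _ (hfT i)) hca hcm
  have hpT : p ∉ T := fun hp => by have := hTh p hp; omega
  have hprange : p ∉ Set.range f := by
    rintro ⟨i, rfl⟩; exact hpT (hfT i)
  have hc3 := hc.three_le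
  -- a vertex of `T` outside the cycle
  obtain ⟨v, hvT, hv⟩ : ∃ v ∈ T, v ∉ Set.range f := by
    by_contra hno
    push Not at hno
    have : T ⊆ (Finset.range c).image (fun i : ℕ => f (i : ℤ)) := by
      intro x hx
      obtain ⟨i, rfl⟩ := hno x hx
      obtain ⟨j, hj0, hjc, hje⟩ := hc.exists_rep i
      refine Finset.mem_image.2 ⟨j.toNat, Finset.mem_range.2 (by omega), ?_⟩
      rw [hje]; congr 1; omega
    have := (Finset.card_le_card this).trans Finset.card_image_le
    simp at this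
    omega
  -- a neighbour of the cycle outside it
  obtain ⟨n, hn⟩ := hT.conn v hvT (f 0) (hfT 0)
  obtain ⟨w0, ⟨i0, rfl⟩, k0, -, hp0⟩ := first_hit hn (X := Set.range f) ⟨0, rfl⟩
  obtain ⟨g, g0, gk, gi, gadj, gm⟩ := hp0
  have hk0 : 0 < k0 := by
    rcases Nat.eq_zero_or_pos k0 with rfl | h
    · exact absurd ⟨i0, (g0.symm.trans gk).symm⟩ hv
    · exact h
  have hv' : g (k0 - 1) ∈ T ∧ g (k0 - 1) ∉ Set.range f := by
    refine ⟨(gm _ (by omega)).1, fun hr' => ?_⟩
    have := gi (k0 - 1) (by omega) k0 le_rfl (((gm _ (by omega)).2 hr').trans gk.symm)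
    omega
  have hadj0 : G.Adj (f i0) (g (k0 - 1)) := by
    have := gadj (k0 - 1) (by omega)
    have e : k0 - 1 + 1 = k0 := by omega
    rw [e, gk] at this
    exact this.symm
  set v' := g (k0 - 1)
  have hv'ne : v' ≠ f i0 := fun h => hv'.2 ⟨i0, h.symm⟩
  have hne1 : f (i0 + 1) ≠ f i0 := fun h => (hc.adj i0).ne h.symm
  obtain ⟨n', hn'⟩ := hT.conn_erase (f i0) (hfT i0) v' ⟨hv'.1, hv'ne⟩ (f (i0 + 1))
    ⟨hfT _, hne1⟩
  obtain ⟨w1, ⟨i1, rfl⟩, k1, -, hp1⟩ := first_hit hn' (X := Set.range f) ⟨i0 + 1, rfl⟩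
  have hw1 : f i1 ≠ f i0 := (hp1.right_mem).1.2
  have hk1 : 1 ≤ k1 := by
    rcases Nat.eq_zero_or_pos k1 with rfl | h
    · obtain ⟨q, q0, q1, -⟩ := hp1
      exact absurd ⟨i1, (q0.symm.trans q1).symm⟩ hv'.2
    · exact h
  -- represent the second end at a positive offset from the first
  obtain ⟨D0, hD0, hDc, hDe⟩ := (hc.shift i0).exists_rep (i1 - i0)
  simp only [sub_add_cancel] at hDe
  obtain ⟨D, rfl⟩ : ∃ D : ℕ, D0 = (D : ℤ) := ⟨D0.toNat, by omega⟩
  have hD1 : 1 ≤ D := by
    rcases Nat.eq_zero_or_pos D with rfl | h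
    · simp at hDe; exact absurd hDe hw1
    · exact h
  rw [add_comm (D:ℤ) i0] at hDe
  have ear := (pathLen_edge_pair hadj0).append hp1 (by
    intro x hx hx'
    rcases hx with hx | hx
    · exact absurd hx hx'.1.2
    · exact hx)
  rw [hDe] at ear
  by_cases he : 1 + k1 + 2 ≤ m
  · have W := (hc.wheel_path hprange hub (u := i0) (D := D) (t := m - (1 + k1)) hD1 (by omega)
      (by omega) (by omega)).reverse
    have := ear.close W (by omega) (by omega) (by omega) (by
      intro x hx hx'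
      rcases hx' with hx' | hx'
      · rcases hx with hx | hx
        · rcases hx with hx | hx
          · exact absurd ⟨i0, hx.symm.trans hx'⟩ hprange
          · have hxT : x ∈ T := by rw [hx]; exact hv'.1
            exact absurd (hx' ▸ hxT) hpT
        · exact absurd (hx' ▸ hx.1.1) hpT
      · rcases hx with hx | hx
        · rcases hx with hx | hx
          · exact Or.inl hx
          · exact absurd hx' (hx ▸ hv'.2)
        · exact Or.inr ((hx.2 hx').trans (hDe ▸ rfl)))
    apply hnc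
    have e : 1 + k1 + (m - (1 + k1)) = m := by omega
    rwa [e] at this
  · -- a long cycle inside the layer
    have arc := (hc.path_up i0 D (by omega)).reverse
    have hsub : ∀ x ∈ ({f i0, v'} : Set V) ∪
        {x | x ∈ ((T : Set V) \ {f i0}) ∧ (x ∈ Set.range f → x = f (i0 + D))},
        x ∈ (T : Set V) := by
      intro x hx
      rcases hx with hx | hx
      · rcases hx with rfl | rfl
        · exact hfT i0
        · exact hv'.1
      · exact hx.1.1
    have ear' := ear.mono (T := ({f i0, v'} : Set V) ∪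
        {x | x ∈ ((T : Set V) \ {f i0}) ∧ (x ∈ Set.range f → x = f (i0 + D))}) (by
      intro x hx
      rcases hx with hx | hx
      · exact Or.inl hx
      · exact Or.inr hx)
    have hL := (ear'.inside (T := (T : Set V)) hsub).close (arc.inside (T := (T : Set V)) (by
      rintro x ⟨i, -, -, rfl⟩; exact hfT i)) (by omega) (by omega) (by omega) (by
      intro x hx hx'
      obtain ⟨i, -, -, rfl⟩ := hx'
      rcases hx with hx | hx
      · rcases hx with hx | hx
        · exact Or.inl hx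
        · exact absurd ⟨i, hx⟩ hv'.2
      · exact Or.inr (hx.2 ⟨i, rfl⟩))
    obtain ⟨f', hc', hf'⟩ := hL.inside_zcyc
    obtain ⟨h1, -⟩ := hB.layer_cycle hnc ha hh hhm hc' (fun i => hTH (hf' i))
      (fun i => hTh _ (hf' i)) (by omega) (by omega)
    omega

/-- In the first layer a long path closes up through the root. -/
theorem BFS.no_first_layer_piece [DecidableEq V] (hB : BFS G H r d par) {m c : ℕ}
    (hnc : ¬ HasCyc G m) (hm : 3 ≤ m) {T : Finset V} (hTH : T ⊆ H) (hTh : ∀ v ∈ T, d v = 1)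
    (hT : TwoConn G T) {f : ℤ → V} (hc : ZCyc G c f) (hfT : ∀ i, f i ∈ T) (hcm : m ≤ c + 2)
    (hbig : m ≤ T.card + 1) : False := by
  classical
  have hr : ∀ v ∈ T, G.Adj r v := by
    intro v hv
    obtain ⟨h1, h2, h3⟩ := hB.step v (hTH hv) (by rw [hTh v hv]; norm_num)
    rw [hTh v hv] at h2
    rw [hB.eq_root _ h1 (by omega)] at h3
    exact h3.symm
  have hrT : r ∉ T := fun h => by
    have h1 := hTh r h
    rw [hB.root_zero] at h1
    omega
  obtain ⟨u, v, hP⟩ : ∃ u v, PathLen G (T : Set V) u v (m - 2) := by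
    by_cases hlt : m - 2 < c
    · refine ⟨_, _, (hc.path_up 0 (m - 2) hlt).mono ?_⟩
      rintro x ⟨i, -, -, rfl⟩
      exact hfT i
    have hc3 := hc.three_le
    obtain ⟨w, hwT, hw⟩ : ∃ w ∈ T, w ∉ Set.range f := by
      by_contra hno
      push Not at hno
      have : T ⊆ (Finset.range c).image (fun i : ℕ => f (i : ℤ)) := by
        intro x hx
        obtain ⟨i, rfl⟩ := hno x hx
        obtain ⟨j, hj0, hjc, hje⟩ := hc.exists_rep i
        refine Finset.mem_image.2 ⟨j.toNat, Finset.mem_range.2 (by omega), ?_⟩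
        rw [hje]; congr 1; omega
      have := (Finset.card_le_card this).trans Finset.card_image_le
      simp at this
      omega
    obtain ⟨n, hn⟩ := hT.conn w hwT (f 0) (hfT 0)
    obtain ⟨w0, ⟨i0, rfl⟩, k0, -, hp0⟩ := first_hit hn (X := Set.range f) ⟨0, rfl⟩
    obtain ⟨g, g0, gk, gi, gadj, gm⟩ := hp0
    have hk0 : 0 < k0 := by
      rcases Nat.eq_zero_or_pos k0 with rfl | h
      · exact absurd ⟨i0, (g0.symm.trans gk).symm⟩ hw
      · exact h
    have hv' : g (k0 - 1) ∉ Set.range f := fun hr' => by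
      have := gi (k0 - 1) (by omega) k0 le_rfl (((gm _ (by omega)).2 hr').trans gk.symm)
      omega
    have hadj0 : G.Adj (g (k0 - 1)) (f i0) := by
      have := gadj (k0 - 1) (by omega)
      have e : k0 - 1 + 1 = k0 := by omega
      rwa [e, gk] at this
    refine ⟨g (k0 - 1), f (i0 + (c - 1 : ℕ)), ?_⟩
    have e : m - 2 = 1 + (c - 1) := by omega
    rw [e]
    refine (pathLen_edge_pair hadj0).append' (hc.path_up i0 (c - 1) (by omega)) ?_ ?_
    · intro z hz hz'
      rcases hz with hz | hz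
      · obtain ⟨i, -, -, rfl⟩ := hz'
        exact absurd ⟨i, hz⟩ hv'
      · exact hz
    · intro z hz
      rcases hz with (hz | hz) | ⟨i, -, -, rfl⟩
      · rw [hz]; exact (gm _ (by omega)).1
      · rw [hz]; exact hfT i0
      · exact hfT i
  have hu := hP.left_mem
  have hv := hP.right_mem
  have Q := (pathLen_edge_pair (hr v hv).symm).append (pathLen_edge_pair (hr u hu)) (by
    intro z hz hz'
    rcases hz' with h | h
    · exact h
    · rcases hz with h' | h'
      · subst h
        obtain ⟨p, p0, pn, pi, -⟩ := hP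
        have := pi 0 (Nat.zero_le _) (m - 2) le_rfl (p0.trans (h'.trans pn.symm))
        omega
      · exact h')
  have := hP.close Q (by omega) (by omega) (by omega) (by
    intro z hz hz'
    rcases hz' with (h | h) | h | h
    · exact Or.inr h
    · exact absurd (h ▸ hz) hrT
    · exact absurd (h ▸ hz) hrT
    · exact Or.inl h)
  apply hnc
  have e : m - 2 + (1 + 1) = m := by omega
  rwa [e] at this

end Vale.Agent.P048
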