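import Vale.Agent.P048.Induction

/-!
The Ramsey number in terms of walks, and the construction giving the lower bound.
-/

namespace Vale.Agent.P048

/-- Disjoint cliques on `m - 1` vertices each. -/
def blockGraph (m N : ℕ) : SimpleGraph (Fin N) :=
  SimpleGraph.fromRel (fun i j => i.val / (m - 1) = j.val / (m - 1))

lemma blockGraph_adj {m N : ℕ} {i j : Fin N} :
    (blockGraph m N).Adj i j ↔ i ≠ j ∧ i.val / (m - 1) = j.val / (m - 1) := by
  simp only [blockGraph, SimpleGraph.fromRel_adj]
  constructor
  · rintro ⟨h, h' | h'⟩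
    · exact ⟨h, h'⟩
    · exact ⟨h, h'.symm⟩
  · rintro ⟨h, h'⟩; exact ⟨h, Or.inl h'⟩

lemma blockGraph_walk {m N : ℕ} {i j : Fin N} (p : (blockGraph m N).Walk i j) :
    ∀ x ∈ p.support, x.val / (m - 1) = i.val / (m - 1) := by
  induction p with
  | nil => intro x hx; simp at hx; rw [hx]
  | cons h p ih =>
    intro x hx
    simp at hx
    rcases hx with rfl | hx
    · rfl
    · rw [ih x hx, (blockGraph_adj.1 h).2]

lemma lower_construction {m n N : ℕ} (hm : 2 ≤ m) (hN : N ≤ (m - 1) * (n - 1)) :
    (¬ ∃ v : Fin N, ∃ p : (blockGraph m N).Walk v v, p.IsCycle ∧ p.length = m) ∧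
    ∀ s : Finset (Fin N), (blockGraph m N).IsNIndepSet n s → n = 0 := by
  classical
  constructor
  · rintro ⟨v, p, hp, hl⟩
    have hnd := hp.support_nodup
    have hlen : p.support.tail.length = m := by simp [hl]
    set b := v.val / (m - 1) with hb
    have hsub : (p.support.tail.toFinset.image Fin.val) ⊆
        Finset.Ico (b * (m - 1)) (b * (m - 1) + (m - 1)) := by
      intro x hx
      simp at hx
      obtain ⟨y, hy, rfl⟩ := hx
      have := blockGraph_walk p y (List.mem_of_mem_tail hy)
      rw [← hb] at this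
      have h1 := Nat.div_add_mod y.val (m - 1)
      have h2 := Nat.mod_lt y.val (show m - 1 > 0 by omega)
      rw [this, mul_comm] at h1
      simp
      omega
    have := Finset.card_le_card hsub
    rw [Finset.card_image_of_injective _ Fin.val_injective, List.toFinset_card_of_nodup hnd,
      Nat.card_Ico, hlen] at this
    omega
  · intro s hs
    by_contra hn
    obtain ⟨hind, hcard⟩ := hs
    have hinj : Set.InjOn (fun i : Fin N => i.val / (m - 1)) (s : Set (Fin N)) := by
      intro x hx y hy h
      by_contra hne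
      exact hind hx hy hne (blockGraph_adj.2 ⟨hne, h⟩)
    have := Finset.card_le_card_of_injOn (t := Finset.range (n - 1))
      (fun i : Fin N => i.val / (m - 1)) (fun i _ => by
        simp
        exact (Nat.div_lt_iff_lt_mul (show 0 < m - 1 by omega)).2 (by
          rw [mul_comm]; exact lt_of_lt_of_le i.isLt hN)) hinj
    simp at this
    omega

/-- The Ramsey statement, given the three structural theorems. -/
theorem ramsey_of_specs (hcirc : ∀ N, ∀ G : SimpleGraph (Fin N), CircSpec G)
    (hcen : ∀ N, ∀ G : SimpleGraph (Fin N), CenterSpec G)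
    (hlink : ∀ N, ∀ G : SimpleGraph (Fin N), LinkSpec G)
    {m n : ℕ} (hn : 1 ≤ n) (hm : 2 * n ≤ m) :
    IsLeast {N : ℕ | ∀ G : SimpleGraph (Fin N),
      (∃ v : Fin N, ∃ p : G.Walk v v, p.IsCycle ∧ p.length = m) ∨
      ∃ s : Finset (Fin N), G.IsNIndepSet n s} ((m - 1) * (n - 1) + 1) := by
  classical
  constructor
  · intro G
    by_cases hc : HasCyc G m
    · exact Or.inl hc.exists_walk
    right
    by_contra hno
    push Not at hno
    have hbd : aNum G (Finset.univ : Finset (Fin ((m - 1) * (n - 1) + 1))) ≤ n - 1 := by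
      obtain ⟨I, -, hIi, hIc⟩ := exists_max_indep (G := G) Finset.univ
      by_contra h
      obtain ⟨J, hJ, hJc⟩ := Finset.exists_subset_card_eq (show n ≤ I.card by omega)
      exact hno J ⟨hIi.mono (by exact_mod_cast hJ), hJc⟩
    have := card_le_mul (hcirc _ G) (hcen _ G) (hlink _ G) hc Finset.univ (by omega)
    have h2 := Nat.mul_le_mul_left (m - 1) hbd
    simp at this
    omega
  · intro N hN
    by_contra hlt
    push Not at hlt
    obtain ⟨h1, h2⟩ := lower_construction (m := m) (n := n) (N := N) (by omega) (by omega)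
    rcases hN (blockGraph m N) with h | ⟨s, hs⟩
    · exact h1 h
    · have := h2 s hs; omega

end Vale.Agent.P048
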