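import Vale.Agent.P048.Windows

/-!
Two cliques sharing one or two vertices.
-/

namespace Vale.Agent.P048

open Finset

variable {V : Type*} [DecidableEq V] {G : SimpleGraph V}

/-- A shortest path between two sets is induced, so it is short. -/
lemma shortest_between {S X Y : Set V} {a : ℕ} (ha : IndBound G S a)
    (h : ∃ u ∈ X, ∃ v ∈ Y, ∃ n, PathLen G S u v n) :
    ∃ u ∈ X, ∃ v ∈ Y, ∃ n, n + 1 ≤ 2 * a ∧
      PathLen G {z | z ∈ S ∧ (z ∈ X → z = u) ∧ (z ∈ Y → z = v)} u v n := by
  classical
  have hex : ∃ n, ∃ u ∈ X, ∃ v ∈ Y, PathLen G S u v n := by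
    obtain ⟨u, hu, v, hv, n, hn⟩ := h
    exact ⟨n, u, hu, v, hv, hn⟩
  obtain ⟨n, ⟨u, hu, v, hv, hP⟩, hmin⟩ : ∃ n, (∃ u ∈ X, ∃ v ∈ Y, PathLen G S u v n) ∧
      ∀ n', (∃ u ∈ X, ∃ v ∈ Y, PathLen G S u v n') → n ≤ n' :=
    ⟨Nat.find hex, Nat.find_spec hex, fun _ h' => Nat.find_le h'⟩
  obtain ⟨p, p0, pn, pi, padj, pm⟩ := hP
  refine ⟨u, hu, v, hv, n, ha.induced_path pi pm ?_, p, p0, pn, pi, padj, fun i hi => ⟨pm i hi, ?_, ?_⟩⟩
  · intro i hi j hj hij hadj
    have := hmin (i + 1 + (n - j)) ⟨u, hu, v, hv, spl p p i j, by simp [spl, p0],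
      by rw [spl_last hj, pn],
      spl_inj hj (fun a ha b hb => pi a (by omega) b (by omega)) pi
        (fun a ha b hb1 hb2 h => by have := pi a (by omega) b hb2 h; omega),
      spl_adj hj (fun a ha => padj a (by omega)) padj hadj,
      spl_mem S (fun t ht => pm t (by omega)) (fun t _ ht => pm t ht) hj⟩
    omega
  · intro hX
    have := hmin (n - i) ⟨p i, hX, v, hv, fun t => p (i + t), rfl,
      by simp only; rw [show i + (n - i) = n by omega, pn],
      fun a ha b hb h => by have := pi (i + a) (by omega) (i + b) (by omega) h; omega,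
      fun a ha => padj (i + a) (by omega), fun a ha => pm (i + a) (by omega)⟩
    rcases Nat.eq_zero_or_pos i with rfl | h
    · exact p0
    · omega
  · intro hY
    have := hmin i ⟨u, hu, p i, hY, p, p0, rfl,
      fun a ha b hb => pi a (ha.trans hi) b (hb.trans hi),
      fun a ha => padj a (by omega), fun a ha => pm a (by omega)⟩
    have : i = n := by omega
    subst this
    exact pn

/-- Two cliques sharing exactly one vertex. -/
theorem cliques_share_one {S : Finset V} {K K' : Finset V} {w : V} {k m a : ℕ}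
    (hnc : ¬ HasCyc G m) (hS : TwoConn G S) (ha : IndBound G (S : Set V) a)
    (hKS : K ⊆ S) (hKS' : K' ⊆ S) (hK : G.IsClique (K : Set V)) (hK' : G.IsClique (K' : Set V))
    (hKc : K.card = k + 1) (hKc' : K'.card = k + 1) (hint : K ∩ K' = {w}) (hk : 2 ≤ k)
    (hm : m = 2 * k + 1) (ham : 2 * a + 3 ≤ m) : False := by
  have hw : w ∈ K ∧ w ∈ K' := Finset.mem_inter.1 (by rw [hint]; simp)
  have huniq : ∀ z ∈ K, z ∈ K' → z = w := fun z h1 h2 => by
    have : z ∈ K ∩ K' := Finset.mem_inter.2 ⟨h1, h2⟩
    simpa [hint] using this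
  obtain ⟨u0, hu0⟩ : (K.erase w).Nonempty := by
    apply Finset.card_pos.1; rw [Finset.card_erase_of_mem hw.1]; omega
  obtain ⟨v0, hv0⟩ : (K'.erase w).Nonempty := by
    apply Finset.card_pos.1; rw [Finset.card_erase_of_mem hw.2]; omega
  simp at hu0 hv0
  obtain ⟨n0, hn0⟩ := hS.conn_erase w (hKS hw.1) u0 ⟨hKS hu0.2, hu0.1⟩ v0 ⟨hKS' hv0.2, hv0.1⟩
  obtain ⟨u, hu, v, hv, n, hn, hP⟩ := shortest_between (X := {z | z ∈ K}) (Y := {z | z ∈ K'})
    (ha.mono (T := (S : Set V) \ {w}) Set.sdiff_subset le_rfl)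
    ⟨u0, hu0.2, v0, hv0.2, n0, hn0⟩
  have huw : u ≠ w := fun h => hP.left_mem.1.2 h
  have hvw : v ≠ w := fun h => hP.right_mem.1.2 h
  have hn1 : 1 ≤ n := by
    rcases Nat.eq_zero_or_pos n with rfl | h
    · obtain ⟨p, p0, p1, -⟩ := hP
      exact absurd (huniq u hu (by rw [← p0, p1]; exact hv)) huw
    · exact h
  set t1 := min k (m - n - 1) with ht1
  have P1 := clique_path t1 (by omega) K hK w hw.1 u hu huw.symm (by omega)
  have P2 := clique_path (m - n - t1) (by omega) K' hK' v hv w hw.2 hvw (by omega)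
  have Q := P2.append P1 (fun z h1 h2 => huniq z h2 h1)
  have := hP.close Q hn1 (by omega) (by omega) (by
    intro z hz hz'
    rcases hz' with hz' | hz'
    · exact Or.inr (hz.2.2 hz')
    · exact Or.inl (hz.2.1 hz'))
  apply hnc
  have e : n + (m - n - t1 + t1) = m := by omega
  rwa [e] at this

/-- Paths of all lengths in the union of two cliques sharing two vertices. -/
lemma two_shared_paths {K K' : Finset V} {w w' x y : V} {k t : ℕ}
    (hK : G.IsClique (K : Set V)) (hK' : G.IsClique (K' : Set V)) (hKc : K.card = k + 1)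
    (hKc' : K'.card = k + 1) (hint : K ∩ K' = {w, w'}) (hne : w ≠ w')
    (hx : x ∈ K) (hx' : x ∉ K') (hy : y ∈ K ∪ K') (hxy : x ≠ y) (ht : 3 ≤ t)
    (htk : t + 1 ≤ 2 * k) : PathLen G ((K ∪ K' : Finset V) : Set V) x y t := by
  have hk : 2 ≤ k := by omega
  have hw : w ∈ K ∧ w ∈ K' := Finset.mem_inter.1 (by rw [hint]; simp)
  have hw' : w' ∈ K ∧ w' ∈ K' := Finset.mem_inter.1 (by rw [hint]; simp)
  have huniq : ∀ z ∈ K, z ∈ K' → z = w ∨ z = w' := fun z h1 h2 => by
    have : z ∈ K ∩ K' := Finset.mem_inter.2 ⟨h1, h2⟩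
    simpa [hint] using this
  have hxw : x ≠ w := fun h => hx' (h ▸ hw.2)
  have hxw' : x ≠ w' := fun h => hx' (h ▸ hw'.2)
  have hsub : ∀ X : Finset V, X ⊆ K → ((X : Set V) ∪ (K' : Set V)) ⊆ ((K ∪ K' : Finset V) : Set V) := by
    intro X hX z hz
    rcases hz with hz | hz
    · exact Finset.mem_coe.2 (Finset.mem_union_left _ (hX hz))
    · exact Finset.mem_coe.2 (Finset.mem_union_right _ hz)
  have clK : ∀ z : V, G.IsClique ((K.erase z : Finset V) : Set V) :=
    fun z => hK.subset (by exact_mod_cast Finset.erase_subset z K)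
  -- join through a shared vertex `s`, avoiding the other shared vertex `o` on the first clique
  have join : ∀ s o : V, s ∈ K → s ∈ K' → o ∈ K → s ≠ o → x ≠ s → x ≠ o →
      (∀ z ∈ K, z ∈ K' → z = s ∨ z = o) → y ∈ K' → y ≠ s →
      PathLen G ((K ∪ K' : Finset V) : Set V) x y t := by
    intro s o hs hs' ho hso hxs hxo hun hyK' hys
    set t1 := min (k - 1) (t - 1) with ht1
    have P1 := clique_path t1 (by omega) (K.erase o) (clK o) x (by simp [hxo, hx]) s
      (by simp [hso, hs]) hxs (by rw [Finset.card_erase_of_mem ho]; omega)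
    have P2 := clique_path (t - t1) (by omega) K' hK' s hs' y hyK' hys.symm (by omega)
    have e : t1 + (t - t1) = t := by omega
    rw [← e]
    refine P1.append' P2 ?_ (hsub _ (Finset.erase_subset _ _))
    intro z hz hz'
    simp at hz
    rcases hun z hz.1 hz' with h | h
    · exact h
    · exact absurd h hz.2
  by_cases hyK' : y ∈ K'
  · by_cases hyw : y = w
    · subst hyw
      exact join w' y hw'.1 hw'.2 hw.1 hne.symm hxw' hxw
        (fun z h1 h2 => (huniq z h1 h2).symm) hyK' hne
    · exact join w w' hw.1 hw.2 hw'.1 hne hxw hxw' huniq hyK' hyw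
  · have hyK : y ∈ K := by simpa [hyK'] using hy
    have hyw : y ≠ w := fun h => hyK' (h ▸ hw.2)
    have hyw' : y ≠ w' := fun h => hyK' (h ▸ hw'.2)
    have hk3 : 3 ≤ k := by
      by_contra hk3
      have h4 : ({x, y, w, w'} : Finset V) ⊆ K := by
        intro z hz; simp at hz; rcases hz with rfl | rfl | rfl | rfl
        exacts [hx, hyK, hw.1, hw'.1]
      have := Finset.card_le_card h4
      simp [hxy, hxw, hxw', hyw, hyw', hne] at this
      omega
    have hcl : G.IsClique (((K.erase w').erase y : Finset V) : Set V) :=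
      (clK w').subset (by exact_mod_cast Finset.erase_subset y (K.erase w'))
    set t1 := min (k - 2) (t - 2) with ht1
    have P1 := clique_path t1 (by omega) _ hcl x (by simp [hxy, hxw', hx]) w
      (by simp [hyw.symm, hne, hw.1]) hxw (by
        rw [Finset.card_erase_of_mem (by simp [hyw', hyK]), Finset.card_erase_of_mem hw'.1]; omega)
    have P2 := clique_path (t - 1 - t1) (by omega) K' hK' w hw.2 w' hw'.2 hne (by omega)
    have P3 := pathLen_edge_pair (hK hw'.1 hyK hyw'.symm)
    have Q := P1.append P2 (by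
      intro z hz hz'
      simp at hz
      rcases huniq z hz.1.1 hz' with h | h
      · exact h
      · exact absurd h hz.1.2)
    have e : t1 + (t - 1 - t1) + 1 = t := by omega
    rw [← e]
    refine Q.append' P3 ?_ ?_
    · intro z hz hz'
      rcases hz' with hz' | hz'
      · exact hz'
      · have hzy : z = y := hz'
        subst hzy
        rcases hz with hz | hz
        · simp at hz
        · exact absurd hz hyK'
    · intro z hz
      rcases hz with hz | hz | hz
      · exact hsub _ ((Finset.erase_subset _ _).trans (Finset.erase_subset _ _)) hz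
      · exact Finset.mem_coe.2 (Finset.mem_union_left _ (hz ▸ hw'.1))
      · have hzy : z = y := hz
        exact Finset.mem_coe.2 (Finset.mem_union_left _ (hzy ▸ hyK))

/-- Two cliques sharing exactly two vertices. -/
theorem cliques_share_two {S : Finset V} {K K' : Finset V} {w w' : V} {k m : ℕ}
    (hnc : ¬ HasCyc G m) (hS : Crit G S (m - 1)) (h2 : TwoConn G S)
    (hKS : K ⊆ S) (hKS' : K' ⊆ S) (hK : G.IsClique (K : Set V)) (hK' : G.IsClique (K' : Set V))
    (hKc : K.card = k + 1) (hKc' : K'.card = k + 1) (hint : K ∩ K' = {w, w'}) (hne : w ≠ w')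
    (hk : 2 ≤ k) (hm : m = 2 * k + 1) (ham : 2 * aNum G S + 3 ≤ m) : False := by
  classical
  have hUc : (K ∪ K').card + 2 = 2 * k + 2 := by
    have := Finset.card_union_add_card_inter K K'
    rw [hint, Finset.card_pair hne] at this
    omega
  by_cases hexit : ∃ x ∈ K, x ∉ K' ∧ ∃ v ∈ S, v ∉ K ∪ K' ∧ G.Adj x v
  · obtain ⟨x, hx, hx', v, hv, hvU, hxv⟩ := hexit
    have hw : w ∈ K ∧ w ∈ K' := Finset.mem_inter.1 (by rw [hint]; simp)
    obtain ⟨n0, hn0⟩ := h2.conn_erase x (hKS hx) v ⟨hv, fun h => (hxv.ne) h.symm⟩ w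
      ⟨hKS hw.1, fun h => hx' (h ▸ hw.2)⟩
    obtain ⟨z, hz, y, hy, n, hn, hP⟩ := shortest_between
      (X := {z | z ∉ K ∪ K' ∧ G.Adj x z}) (Y := {z | z ∈ K ∪ K'})
      ((indBound_aNum S).mono (T := (S : Set V) \ {x}) Set.sdiff_subset le_rfl)
      ⟨v, ⟨hvU, hxv⟩, w, Finset.mem_union_left _ hw.1, n0, hn0⟩
    have hyx : x ≠ y := fun h => hP.right_mem.1.2 h.symm
    have hn1 : 1 ≤ n := by
      rcases Nat.eq_zero_or_pos n with rfl | h
      · obtain ⟨p, p0, p1, -⟩ := hP
        exact absurd (by rw [← p0, p1]; exact hy) hz.1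
      · exact h
    have ear := (pathLen_edge_pair hz.2).append hP (by
      intro u hu hu'
      rcases hu with hu | hu
      · exact absurd hu hu'.1.2
      · exact hu)
    have U := (two_shared_paths (t := m - (1 + n)) hK hK' hKc hKc' hint hne hx hx' hy hyx
      (by omega) (by omega)).reverse
    have := ear.close U (by omega) (by omega) (by omega) (by
      intro u hu hu'
      rcases hu with (hu | hu) | hu
      · exact Or.inl hu
      · exact absurd hu' (hu ▸ hz.1)
      · exact Or.inr (hu.2.2 hu'))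
    apply hnc
    have e : 1 + n + (m - (1 + n)) = m := by omega
    rwa [e] at this
  · push Not at hexit
    obtain ⟨x, hx, hx'⟩ : ∃ x ∈ K, x ∉ K' := by
      by_contra h
      push Not at h
      have e : K ∩ K' = K := Finset.inter_eq_left.2 h
      rw [e] at hint
      rw [hint, Finset.card_pair hne] at hKc
      omega
    have hlt : aNum G (S \ (K ∪ K')) + 1 ≤ aNum G S := by
      obtain ⟨I, hI, hIi, hIc⟩ := exists_max_indep (G := G) (S \ (K ∪ K'))
      have hIx : AntiCompl G {x} I := by
        intro a ha b hb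
        simp at ha; subst ha
        have := hI hb
        simp at this
        exact hexit a hx hx' b this.1 (by simp [this.2])
      have hxI : x ∉ I := fun h => by have := hI h; simp [hx] at this
      have := indep_union (I := {x}) (by simp [SimpleGraph.isIndepSet_iff]) hIi hIx
      have := card_le_aNum (S := S) (Finset.union_subset (by simpa using hKS hx)
        (hI.trans Finset.sdiff_subset)) this
      rw [Finset.card_union_of_disjoint (by simpa using hxI), Finset.card_singleton] at this
      omega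
    have h3 := hS.sub (S \ (K ∪ K')) Finset.sdiff_subset (by omega)
    have h4 := Nat.mul_le_mul_left (m - 1) hlt
    rw [Nat.mul_add, Nat.mul_one] at h4
    have h5 := Finset.card_sdiff_of_subset (Finset.union_subset hKS hKS')
    have h6 := hS.card_eq
    omega

end Vale.Agent.P048
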