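import Vale.Agent.P048.Defs
import Vale.Agent.P048.Chord

/-!
Paths given by lists of vertices.
-/

namespace Vale.Agent.P048

open List

variable {V : Type*} {G : SimpleGraph V}

/-- `L` lists the vertices of a path from `u` to `v` inside `S`. -/
structure Pth (G : SimpleGraph V) (S : Set V) (u v : V) (L : List V) : Prop where
  head : L.head? = some u
  last : L.getLast? = some v
  nodup : L.Nodup
  chain : L.IsChain G.Adj
  mem : ∀ x ∈ L, x ∈ S

variable {S T : Set V} {u v w z : V} {L L₁ L₂ : List V}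

lemma Pth.mono (h : Pth G S u v L) (hST : S ⊆ T) : Pth G T u v L :=
  ⟨h.head, h.last, h.nodup, h.chain, fun x hx => hST (h.mem x hx)⟩

lemma Pth.ne_nil (h : Pth G S u v L) : L ≠ [] := by
  intro e; simpa [e] using h.head

lemma Pth.head_mem (h : Pth G S u v L) : u ∈ L := List.mem_of_mem_head? h.head
lemma Pth.last_mem (h : Pth G S u v L) : v ∈ L := List.mem_of_mem_getLast? h.last
lemma Pth.left_mem (h : Pth G S u v L) : u ∈ S := h.mem u h.head_mem
lemma Pth.right_mem (h : Pth G S u v L) : v ∈ S := h.mem v h.last_mem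

lemma pth_single (hu : u ∈ S) : Pth G S u u [u] :=
  ⟨rfl, rfl, by simp, by simp, by simp [hu]⟩

lemma pth_pair (hu : u ∈ S) (hv : v ∈ S) (h : G.Adj u v) : Pth G S u v [u, v] :=
  ⟨rfl, rfl, by simp [h.ne], by simp [h], by simp [hu, hv]⟩

lemma Pth.reverse (h : Pth G S u v L) : Pth G S v u L.reverse where
  head := by rw [List.head?_reverse, h.last]
  last := by rw [List.getLast?_reverse, h.head]
  nodup := List.nodup_reverse.2 h.nodup
  chain := by
    rw [List.isChain_reverse]
    exact h.chain.imp fun _ _ hab => hab.symm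
  mem := fun x hx => h.mem x (List.mem_reverse.1 hx)

lemma Pth.takeTo (h : Pth G S u v (L₁ ++ z :: L₂)) : Pth G S u z (L₁ ++ [z]) := by
  have hsub : (L₁ ++ [z]) <+: (L₁ ++ z :: L₂) := ⟨L₂, by simp⟩
  refine ⟨?_, by simp, h.nodup.sublist hsub.sublist, (List.IsChain.left_of_append (l₂ := L₂) (by simpa using h.chain)),
    fun x hx => h.mem x (hsub.subset hx)⟩
  have := h.head
  cases L₁ <;> simpa using this

lemma Pth.dropTo (h : Pth G S u v (L₁ ++ z :: L₂)) : Pth G S z v (z :: L₂) := by
  have hsub : (z :: L₂) <:+ (L₁ ++ z :: L₂) := ⟨L₁, rfl⟩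
  refine ⟨rfl, ?_, h.nodup.sublist hsub.sublist, (List.IsChain.right_of_append h.chain),
    fun x hx => h.mem x (hsub.subset hx)⟩
  have := h.last
  rw [List.getLast?_append] at this
  simpa using this

lemma Pth.glue (h₁ : Pth G S u z (L₁ ++ [z])) (h₂ : Pth G S z v (z :: L₂))
    (hd : ∀ x ∈ L₁, x ∉ L₂) : Pth G S u v (L₁ ++ z :: L₂) where
  head := by
    have := h₁.head
    cases L₁ <;> simpa using this
  last := by
    rw [List.getLast?_append]
    simp [h₂.last]
  nodup := by
    rw [List.nodup_append]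
    refine ⟨(List.nodup_append.1 h₁.nodup).1, h₂.nodup, ?_⟩
    intro x hx y hy hxy
    subst hxy
    rcases List.mem_cons.1 hy with rfl | hy
    · exact (List.nodup_append.1 h₁.nodup).2.2 x hx x (by simp) rfl
    · exact hd x hx hy
  chain := List.isChain_split.2 ⟨h₁.chain, h₂.chain⟩
  mem := by
    intro x hx
    rcases List.mem_append.1 hx with hx | hx
    · exact h₁.mem x (by simp [hx])
    · exact h₂.mem x hx

lemma Pth.snoc (h : Pth G S u v L) (hw : w ∈ S) (hadj : G.Adj v w) (hn : w ∉ L) :
    Pth G S u w (L ++ [w]) := by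
  refine ⟨?_, by simp, ?_, ?_, ?_⟩
  · rw [List.head?_append, h.head]; rfl
  · rw [List.nodup_append]
    refine ⟨h.nodup, by simp, ?_⟩
    intro x hx y hy hxy
    simp at hy
    subst hy hxy
    exact hn hx
  · rw [List.isChain_append]
    refine ⟨h.chain, by simp, ?_⟩
    intro x hx y hy
    rw [h.last] at hx
    simp at hx hy
    subst hx hy
    exact hadj
  · intro x hx
    rcases List.mem_append.1 hx with hx | hx
    · exact h.mem x hx
    · simp at hx; subst hx; exact hw

/-- The first member satisfying `p`. -/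
lemma exists_first {p : V → Prop} : ∀ {L : List V}, (∃ x ∈ L, p x) →
    ∃ A z B, L = A ++ z :: B ∧ p z ∧ ∀ x ∈ A, ¬ p x := by
  intro L
  induction L with
  | nil => simp
  | cons b L ih =>
    intro h
    by_cases hb : p b
    · exact ⟨[], b, L, rfl, hb, by simp⟩
    · obtain ⟨x, hx, hpx⟩ := h
      have hx' : x ∈ L := by
        rcases List.mem_cons.1 hx with rfl | hx'
        · exact absurd hpx hb
        · exact hx'
      obtain ⟨A, z, B, e, hz, hA⟩ := ih ⟨x, hx', hpx⟩
      exact ⟨b :: A, z, B, by simp [e], hz, by simpa [hb] using hA⟩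

/-- The last member satisfying `p`. -/
lemma exists_last {p : V → Prop} {L : List V} (h : ∃ x ∈ L, p x) :
    ∃ A z B, L = A ++ z :: B ∧ p z ∧ ∀ x ∈ B, ¬ p x := by
  obtain ⟨A, z, B, e, hz, hA⟩ := exists_first (L := L.reverse) (p := p) (by simpa using h)
  refine ⟨B.reverse, z, A.reverse, ?_, hz, by simpa using hA⟩
  have := congrArg List.reverse e
  simpa using this

lemma Pth.trans (h₁ : Pth G S u v L₁) (h₂ : Pth G S v w L₂) :
    ∃ L, Pth G S u w L ∧ L.length + 1 ≤ L₁.length + L₂.length ∧
      (∀ x ∈ L, x ∈ L₁ ∨ x ∈ L₂) := by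
  classical
  obtain ⟨A, z, B, e, hz, hA⟩ := exists_first (L := L₁) (p := fun x => x ∈ L₂)
    ⟨v, h₁.last_mem, h₂.head_mem⟩
  obtain ⟨C, D, e'⟩ := List.append_of_mem hz
  subst e e'
  refine ⟨A ++ z :: D, (h₁.takeTo).glue h₂.dropTo ?_, by simp; omega, ?_⟩
  · intro x hx hxD
    exact hA x hx (by simp [hxD])
  · intro x hx
    simp at hx ⊢
    tauto

lemma Pth.toPathLen [DecidableEq V] (h : Pth G S u v L) : PathLen G S u v (L.length - 1) := by
  have hpos : 0 < L.length := List.length_pos_of_ne_nil h.ne_nil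
  refine ⟨fun i => L.getD i u, ?_, ?_, ?_, ?_, ?_⟩
  · have := h.head
    rw [List.head?_eq_getElem?] at this
    simp [List.getD_eq_getElem?_getD, this]
  · have := h.last
    rw [List.getLast?_eq_getElem?] at this
    simp [List.getD_eq_getElem?_getD, this]
  · intro i hi j hj hij
    simp [List.getD_eq_getElem?_getD, show i < L.length by omega, show j < L.length by omega] at hij
    exact (h.nodup.getElem_inj_iff).1 hij
  · intro i hi
    have := List.isChain_iff_getElem.1 h.chain i (by omega)
    simpa [List.getD_eq_getElem?_getD, show i < L.length by omega,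
      show i + 1 < L.length by omega] using this
  · intro i hi
    simp [List.getD_eq_getElem?_getD, show i < L.length by omega]
    exact h.mem _ (List.getElem_mem _)

lemma PathLen.toPth {n : ℕ} (h : PathLen G S u v n) : ∃ L, Pth G S u v L ∧ L.length = n + 1 := by
  obtain ⟨p, h0, hn, hi, ha, hm⟩ := h
  refine ⟨(List.range (n + 1)).map p, ⟨?_, ?_, ?_, ?_, ?_⟩, by simp⟩
  · simp [List.range_succ_eq_map, h0]
  · simp [List.range_succ, hn]
  · refine List.Nodup.map_on ?_ List.nodup_range
    intro i hi' j hj' hij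
    simp at hi' hj'
    exact hi i (by omega) j (by omega) hij
  · rw [List.isChain_iff_getElem]
    intro i hi'
    simp at hi' ⊢
    exact ha i (by omega)
  · intro x hx
    simp at hx
    obtain ⟨i, hi', rfl⟩ := hx
    exact hm i (by omega)

lemma Conn.pth (hc : Conn G S) (hu : u ∈ S) (hv : v ∈ S) : ∃ L, Pth G S u v L := by
  obtain ⟨n, hn⟩ := hc u hu v hv
  obtain ⟨L, hL, -⟩ := hn.toPth
  exact ⟨L, hL⟩

/-- A closed list without repetition is a cycle. -/
lemma exists_zcyc_surj (hnd : L.Nodup) (hch : L.IsChain G.Adj) (h3 : 3 ≤ L.length)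
    (hclose : ∀ a b, L.getLast? = some a → L.head? = some b → G.Adj a b) :
    ∃ f : ℤ → V, ZCyc G L.length f ∧ (∀ i, f i ∈ L) ∧ ∀ w ∈ L, ∃ i, f i = w := by
  have hc0 : (0 : ℤ) < (L.length : ℤ) := by omega
  have hlt : ∀ i : ℤ, (i % (L.length : ℤ)).toNat < L.length := by
    intro i
    have := Int.emod_lt_of_pos i hc0
    have := Int.emod_nonneg i hc0.ne'
    omega
  refine ⟨fun i => L[(i % (L.length : ℤ)).toNat]'(hlt i), ⟨h3, ?_, ?_, ?_⟩,
    fun i => List.getElem_mem _, fun w hw => ?_⟩
  rotate_right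
  · obtain ⟨k, hk, rfl⟩ := List.getElem_of_mem hw
    refine ⟨(k : ℤ), ?_⟩
    have e : ((k : ℤ) % (L.length : ℤ)).toNat = k := by
      rw [Int.emod_eq_of_lt (by omega) (by omega)]; rfl
    simp [e]
  · intro i
    simp
  · intro i j hij
    have := (hnd.getElem_inj_iff).1 hij
    have h1 := Int.emod_nonneg i hc0.ne'
    have h2 := Int.emod_nonneg j hc0.ne'
    exact Int.dvd_of_emod_eq_zero (Int.emod_eq_emod_iff_emod_sub_eq_zero.1 (by omega))
  · intro i
    have h1 := Int.emod_nonneg i hc0.ne'
    have h2 := Int.emod_lt_of_pos i hc0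
    by_cases hi : (i % (L.length : ℤ)).toNat + 1 < L.length
    · have e : ((i + 1) % (L.length : ℤ)).toNat = (i % (L.length : ℤ)).toNat + 1 := by
        rw [← Int.emod_add_emod, Int.emod_eq_of_lt (by omega) (by omega)]
        omega
      simp only [e]
      exact List.isChain_iff_getElem.1 hch _ hi
    · have e : ((i + 1) % (L.length : ℤ)).toNat = 0 := by
        rw [← Int.emod_add_emod, show i % (L.length : ℤ) + 1 = (L.length : ℤ) by omega,
          Int.emod_self]
        rfl
      have e' : (i % (L.length : ℤ)).toNat = L.length - 1 := by omega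
      simp only [e, e']
      apply hclose
      · rw [List.getLast?_eq_getElem?]; simp
      · rw [List.head?_eq_getElem?]; simp

/-- A closed list without repetition is a cycle inside itself. -/
lemma exists_zcyc (hnd : L.Nodup) (hch : L.IsChain G.Adj) (h3 : 3 ≤ L.length)
    (hclose : ∀ a b, L.getLast? = some a → L.head? = some b → G.Adj a b) :
    ∃ f : ℤ → V, ZCyc G L.length f ∧ ∀ i, f i ∈ L := by
  obtain ⟨f, hf, hfm, -⟩ := exists_zcyc_surj hnd hch h3 hclose
  exact ⟨f, hf, hfm⟩

end Vale.Agent.P048
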