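import Vale.Agent.P048.TwoCliques

/-!
The induction: without a cycle of length `m`, a set of independence number `α` has at most
`(m - 1) α` vertices as soon as `2 α + 2 ≤ m`.
-/

namespace Vale.Agent.P048

open Finset

variable {V : Type*} [DecidableEq V] {G : SimpleGraph V}

/-- Statement of the linkage theorem, used as an interface. -/
def LinkSpec (G : SimpleGraph V) : Prop :=
  ∀ S A B : Finset V, TwoConn G S → A ⊆ S → B ⊆ S → Disjoint A B → 2 ≤ A.card → 2 ≤ B.card →
    ∃ x y p q, Linkage G (S : Set V) (A : Set V) (B : Set V) x y p q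

lemma crit_contra (hcirc : CircSpec G) (hcen : CenterSpec G) (hlink : LinkSpec G) {m : ℕ}
    (hnc : ¬ HasCyc G m) {S : Finset V} (hS : Crit G S (m - 1)) (hne : S.Nonempty)
    (ham : 2 * aNum G S + 2 ≤ m) : False := by
  classical
  set α := aNum G S with hα
  have hpos : 1 ≤ α := aNum_pos hne
  have hcard := hS.card_eq
  rw [← hα] at hcard
  rcases eq_or_lt_of_le hpos with h1 | h1
  · -- a clique
    have hcl : G.IsClique (S : Set V) := eq_clique_of_aNum_le_one (by omega)
    rw [← h1, Nat.mul_one] at hcard
    obtain ⟨u, hu, v, hv, huv⟩ := Finset.one_lt_card.1 (show 1 < S.card by omega)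
    have := (clique_path (m - 1) (by omega) S hcl u hu v hv huv (by omega)).close
      (pathLen_edge_pair (hcl hv hu huv.symm)) (by omega) le_rfl (by omega) (by
        intro z _ hz
        rcases hz with hz | hz
        · exact Or.inr hz
        · exact Or.inl hz)
    apply hnc
    have e : m - 1 + 1 = m := by omega
    rwa [e] at this
  set k := (m - 1) / 2 with hk
  have hk3 : 2 ≤ k := by omega
  have hTC : TwoConn G S := hS.twoConn (by
    have := Nat.mul_le_mul (show 2 ≤ m - 1 by omega) (show 2 ≤ α by omega)
    omega)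
  have ha : IndBound G (S : Set V) α := indBound_aNum S
  have hbound : ∀ H : Finset V, H ⊆ S → H.Nonempty → NoClique G H k →
      H.card + (k - 1) ≤ 2 * k * α := fun H hH hHne hK =>
    (clique_free_bound hcirc hcen hnc (a := α) (by omega) (by omega) (by omega) (by omega)
      H hHne (ha.mono (by exact_mod_cast hH) le_rfl) hK).trans
      (Nat.mul_le_mul_left _ (aNum_mono hH))
  have hgrow : 2 * k * α ≤ (m - 1) * α := Nat.mul_le_mul_right _ (by omega)
  obtain ⟨K, hKS, hKc, hK⟩ : ∃ K : Finset V, K ⊆ S ∧ K.card = k + 1 ∧ G.IsClique (K : Set V) := by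
    by_contra hno
    have := hbound S subset_rfl hne (fun K hK hc hcl => hno ⟨K, hK, hc, hcl⟩)
    omega
  have second : ∀ R : Finset V, R ⊆ K → R.card + 2 * k * α < S.card + (k - 1) →
      R.card < S.card →
      ∃ K' : Finset V, K' ⊆ S \ R ∧ K'.card = k + 1 ∧ G.IsClique (K' : Set V) := by
    intro R hR hlt hlt'
    by_contra hno
    have hc := Finset.card_sdiff_of_subset (hR.trans hKS)
    have := hbound (S \ R) Finset.sdiff_subset (Finset.card_pos.1 (by omega))
      (fun K' hK' hc hcl => hno ⟨K', hK', hc, hcl⟩)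
    omega
  have hdisj : ∀ K' : Finset V, K' ⊆ S → K'.card = k + 1 → G.IsClique (K' : Set V) →
      Disjoint K K' → False := fun K' hKS' hKc' hK' hd =>
    linked_cliques (hlink S K K' hTC hKS hKS' hd (by omega) (by omega))
      (by exact_mod_cast hd) hK hK' hKc hKc' hnc ha (by omega) (by omega) ham
  have hbig : 2 * (m - 1) ≤ (m - 1) * α := by
    rw [mul_comm 2]; exact Nat.mul_le_mul_left _ (show 2 ≤ α by omega)
  by_cases hodd : m = 2 * k + 1
  · obtain ⟨R, hR, hRc⟩ := Finset.exists_subset_card_eq (show k - 1 ≤ K.card by omega)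
    obtain ⟨K', hK'sub, hKc', hK'⟩ := second R hR (by omega) (by omega)
    have hKS' : K' ⊆ S := hK'sub.trans Finset.sdiff_subset
    have hint : K ∩ K' ⊆ K \ R := by
      intro z hz
      simp at hz
      have := hK'sub hz.2
      simp at this
      simp [hz.1, this.2]
    have hKR := Finset.card_sdiff_of_subset hR
    have hle := Finset.card_le_card hint
    rcases Nat.eq_zero_or_pos (K ∩ K').card with h0 | h0
    · exact hdisj K' hKS' hKc' hK'
        (Finset.disjoint_iff_inter_eq_empty.2 (Finset.card_eq_zero.1 h0))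
    rcases Nat.lt_or_ge (K ∩ K').card 2 with h2 | h2
    · obtain ⟨w, hw⟩ := Finset.card_eq_one.1 (show (K ∩ K').card = 1 by omega)
      exact cliques_share_one hnc hTC ha hKS hKS' hK hK' hKc hKc' hw (by omega) hodd (by omega)
    · obtain ⟨w, w', hne', hw⟩ := Finset.card_eq_two.1 (show (K ∩ K').card = 2 by omega)
      exact cliques_share_two hnc hS hTC hKS hKS' hK hK' hKc hKc' hw hne' (by omega) hodd (by omega)
  · have hm2 : m - 1 = 2 * k + 1 := by omega
    have e : (m - 1) * α = 2 * k * α + α := by rw [hm2]; ring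
    obtain ⟨K', hK'sub, hKc', hK'⟩ := second K subset_rfl (by omega) (by omega)
    exact hdisj K' (hK'sub.trans Finset.sdiff_subset) hKc' hK' (by
      rw [Finset.disjoint_left]
      intro z hz hz'
      have := hK'sub hz'
      simp at this
      exact this.2 hz)

theorem card_le_mul (hcirc : CircSpec G) (hcen : CenterSpec G) (hlink : LinkSpec G) {m : ℕ}
    (hnc : ¬ HasCyc G m) :
    ∀ S : Finset V, 2 * aNum G S + 2 ≤ m → S.card ≤ (m - 1) * aNum G S := by
  intro S
  induction S using Finset.strongInduction with
  | H S ih =>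
    intro ham
    by_contra hbig
    push Not at hbig
    have hne : S.Nonempty := Finset.card_pos.1 (by omega)
    have hcard : S.card = (m - 1) * aNum G S + 1 := by
      obtain ⟨v, hv⟩ := hne
      have hmono := aNum_mono (G := G) (Finset.erase_subset v S)
      have h1 := ih (S.erase v) (Finset.erase_ssubset hv) (by omega)
      rw [Finset.card_erase_of_mem hv] at h1
      have h2 := Nat.mul_le_mul_left (m - 1) hmono
      omega
    exact crit_contra hcirc hcen hlink hnc ⟨hcard, fun T hT hlt =>
      ih T (lt_of_le_of_ne hT (by rintro rfl; exact lt_irrefl _ hlt)) (by omega)⟩ hne ham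

end Vale.Agent.P048
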