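import Vale.Agent.P048.Layers

/-!
Without a large clique, a set has at most about `2 k` times its independence number many vertices.
-/

namespace Vale.Agent.P048

open Finset

variable {V : Type*} [DecidableEq V] {G : SimpleGraph V}

/-- Statement of the circumference theorem, used as an interface. -/
def CircSpec (G : SimpleGraph V) : Prop :=
  ∀ (T : Finset V) (k : ℕ), TwoConn G T → MinDeg G T k → 2 ≤ k → 2 * k ≤ T.card →
    ∃ c f, 2 * k ≤ c ∧ ZCyc G c f ∧ ∀ i, f i ∈ T

/-- Statement of the radius theorem, used as an interface. -/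
def CenterSpec (G : SimpleGraph V) : Prop :=
  ∀ (S : Finset V) (a : ℕ), S.Nonempty → Conn G (S : Set V) → IndBound G (S : Set V) a →
    ∃ r ∈ S, ∀ v ∈ S, ∃ d ≤ a, PathLen G (S : Set V) r v d

/-- No clique on `k + 1` vertices inside `S`. -/
def NoClique (G : SimpleGraph V) (S : Finset V) (k : ℕ) : Prop :=
  ∀ K : Finset V, K ⊆ S → K.card = k + 1 → ¬ G.IsClique (K : Set V)

lemma layer_bound (hcirc : CircSpec G) {H : Finset V} {r : V} {d : V → ℕ} {par : V → V}
    (hB : BFS G H r d par) {m a k h : ℕ} (hnc : ¬ HasCyc G m)
    (ha : IndBound G (H : Set V) a) (hak : a ≤ k) (hk : 2 ≤ k) (hmk : m ≤ 2 * k + 2)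
    (hh : 1 ≤ h) (hhm : 2 * h + 1 ≤ m) (hK : NoClique G H k) :
    ∀ Z : Finset V, Z ⊆ H.filter (fun v => d v = h) → Z.card ≤ k * aNum G Z := by
  intro Z
  induction Z using Finset.strongInduction with
  | H Z ih =>
    intro hZ
    by_contra hbig
    push Not at hbig
    have hZH : Z ⊆ H := hZ.trans (Finset.filter_subset _ _)
    have hne : Z.Nonempty := Finset.card_pos.1 (by omega)
    have hcard : Z.card = k * aNum G Z + 1 := by
      obtain ⟨v, hv⟩ := hne
      have h1 := ih (Z.erase v) (Finset.erase_ssubset hv) ((Finset.erase_subset _ _).trans hZ)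
      rw [Finset.card_erase_of_mem hv] at h1
      have h2 := Nat.mul_le_mul_left k (aNum_mono (G := G) (Finset.erase_subset v Z))
      omega
    have hcrit : Crit G Z k := ⟨hcard, fun T hT hlt => ih T (lt_of_le_of_ne hT (by
      rintro rfl; exact lt_irrefl _ hlt)) (hT.trans hZ)⟩
    have h2 : 2 ≤ aNum G Z := by
      by_contra h
      have h1 : aNum G Z ≤ 1 := by omega
      have hpos := aNum_pos (G := G) hne
      have e : aNum G Z = 1 := by omega
      rw [e, Nat.mul_one] at hcard
      exact hK Z hZH hcard (eq_clique_of_aNum_le_one h1)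
    have h3 := Nat.mul_le_mul_left k h2
    have hT := hcrit.twoConn (by omega)
    obtain ⟨c, f, hkc, hc, hfT⟩ := hcirc Z k hT hcrit.minDeg hk (by omega)
    have hlay : ∀ v ∈ Z, d v = h := fun v hv => (Finset.mem_filter.1 (hZ hv)).2
    rcases eq_or_lt_of_le hh with h1 | h1
    · exact hB.no_first_layer_piece hnc (by omega) hZH (fun v hv => (hlay v hv).trans h1.symm) hT
        hc hfT (by omega) (by omega)
    -- the root sees nothing in a layer of height at least two
    have ha' : IndBound G {v | v ∈ H ∧ d v = h} (a - 1) := by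
      intro I hI hind
      have hrI : r ∉ I := fun hr => by
        have := (hI hr).2
        rw [hB.root_zero] at this
        omega
      have hins : G.IsIndepSet ((insert r I : Finset V) : Set V) := by
        rw [Finset.insert_eq]
        refine indep_union (by simp [SimpleGraph.isIndepSet_iff]) hind ?_
        intro x hx y hy hadj
        simp at hx
        subst hx
        have e := hB.edge y (hI hy).1 _ hB.root_mem hadj.symm
        rw [hB.root_zero, (hI hy).2] at e
        omega
      have := ha (insert r I) (by
        intro v hv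
        simp at hv
        rcases hv with rfl | hv
        · exact hB.root_mem
        · exact (hI hv).1) hins
      rw [Finset.card_insert_of_notMem hrI] at this
      omega
    exact hB.no_layer_piece hnc ha' hh hhm hZH hlay hT hc hfT (by omega) (by omega) (by omega)

lemma sum_layers_le {H : Finset V} {d : V → ℕ}
    (hedge : ∀ u ∈ H, ∀ v ∈ H, G.Adj u v → d u ≤ d v + 1) :
    ∀ L : Finset ℕ, (∀ i ∈ L, ∀ j ∈ L, i % 2 = j % 2) →
      ∑ h ∈ L, aNum G (H.filter (fun v => d v = h)) ≤ aNum G (H.filter (fun v => d v ∈ L)) := by
  intro L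
  induction L using Finset.induction_on with
  | empty => intro _; simp
  | insert h L hh ih =>
    intro hpar
    rw [Finset.sum_insert hh]
    have h1 := ih (fun i hi j hj =>
      hpar i (Finset.mem_insert_of_mem hi) j (Finset.mem_insert_of_mem hj))
    refine le_trans (Nat.add_le_add_left h1 _) (aNum_add_le ?_ ?_ ?_ ?_)
    · intro v hv
      simp at hv ⊢
      exact ⟨hv.1, Or.inl hv.2⟩
    · intro v hv
      simp at hv ⊢
      exact ⟨hv.1, Or.inr hv.2⟩
    · rw [Finset.disjoint_left]
      intro v hv hv'
      simp at hv hv'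
      exact hh (hv.2 ▸ hv'.2)
    · intro u hu v hv huv
      simp at hu hv
      have e := hpar h (Finset.mem_insert_self _ _) (d v) (Finset.mem_insert_of_mem hv.2)
      have e1 := hedge u hu.1 v hv.1 huv
      have e2 := hedge v hv.1 u hu.1 huv.symm
      have : d v ≠ h := fun e' => hh (e' ▸ hv.2)
      omega

/-- The main counting lemma. -/
theorem clique_free_bound (hcirc : CircSpec G) (hcen : CenterSpec G) {m a k : ℕ}
    (hnc : ¬ HasCyc G m) (hak : a ≤ k) (hk : 2 ≤ k) (hmk : m ≤ 2 * k + 2)
    (hma : 2 * a + 1 ≤ m) :
    ∀ S : Finset V, S.Nonempty → IndBound G (S : Set V) a → NoClique G S k →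
      S.card + (k - 1) ≤ 2 * k * aNum G S := by
  intro S
  induction S using Finset.strongInduction with
  | H S ih =>
    intro hne ha hK
    by_cases hconn : Conn G (S : Set V)
    · obtain ⟨r, hr, hd⟩ := hcen S (aNum G S) hne hconn (indBound_aNum S)
      obtain ⟨d, par, hB, hda⟩ := exists_bfs hr hd
      have haS : aNum G S ≤ a := aNum_le ha
      set α := aNum G S with hα
      have hpos : 1 ≤ α := aNum_pos hne
      let Lay : ℕ → Finset V := fun h => S.filter (fun v => d v = h)
      have hlay : ∀ h ∈ Finset.range (α + 1), h ≠ 0 → (Lay h).card ≤ k * aNum G (Lay h) := by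
        intro h hh h0
        simp at hh
        exact layer_bound hcirc hB hnc ha hak hk hmk (by omega) (by omega) hK _ (Finset.Subset.refl _)
      have hL0 : Lay 0 = {r} := by
        ext v
        simp only [Lay, Finset.mem_filter, Finset.mem_singleton]
        exact ⟨fun h => hB.eq_root v h.1 h.2, fun h => h ▸ ⟨hB.root_mem, hB.root_zero⟩⟩
      have hA0 : aNum G (Lay 0) = 1 := by
        apply le_antisymm
        · refine aNum_le fun I hI _ => ?_
          rw [hL0] at hI
          have := Finset.card_le_card (Finset.coe_subset.1 hI)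
          simpa using this
        · exact aNum_pos (by rw [hL0]; simp)
      have hcard : S.card = ∑ h ∈ Finset.range (α + 1), (Lay h).card :=
        Finset.card_eq_sum_card_fiberwise (fun v hv => by
          have := hda v hv; simp; omega)
      set E := (Finset.range (α + 1)).filter (fun h => h % 2 = 0) with hE
      set O := (Finset.range (α + 1)).filter (fun h => ¬ h % 2 = 0) with hO
      have hsum : ∑ h ∈ Finset.range (α + 1), (Lay h).card =
          ∑ h ∈ E, (Lay h).card + ∑ h ∈ O, (Lay h).card :=
        (Finset.sum_filter_add_sum_filter_not _ _ _).symm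
      have h0E : 0 ∈ E := by simp [hE]
      rw [← Finset.add_sum_erase _ _ h0E, hL0, Finset.card_singleton] at hsum
      have hEb : ∑ h ∈ E.erase 0, (Lay h).card ≤ k * ∑ h ∈ E.erase 0, aNum G (Lay h) := by
        rw [Finset.mul_sum]
        refine Finset.sum_le_sum fun h hh => ?_
        simp [hE] at hh
        exact hlay h (by simp; omega) hh.1
      have hOb : ∑ h ∈ O, (Lay h).card ≤ k * ∑ h ∈ O, aNum G (Lay h) := by
        rw [Finset.mul_sum]
        refine Finset.sum_le_sum fun h hh => ?_
        simp [hO] at hh
        exact hlay h (by simp; omega) (by omega)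
      have hEs : ∑ h ∈ E, aNum G (Lay h) ≤ α :=
        (sum_layers_le hB.edge E (fun i hi j hj => by simp [hE] at hi hj; omega)).trans
          (aNum_mono (Finset.filter_subset _ _))
      have hOs : ∑ h ∈ O, aNum G (Lay h) ≤ α :=
        (sum_layers_le hB.edge O (fun i hi j hj => by simp [hO] at hi hj; omega)).trans
          (aNum_mono (Finset.filter_subset _ _))
      rw [← Finset.add_sum_erase _ _ h0E, hA0] at hEs
      have e1 := Nat.mul_le_mul_left k hEs
      have e2 := Nat.mul_le_mul_left k hOs
      rw [Nat.mul_add, Nat.mul_one] at e1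
      rw [Nat.mul_assoc, two_mul]
      omega
    · obtain ⟨A, B, hA, hB, hAne, hBne, hd, hac, hcard, -⟩ := Conn.exists_separation hconn
      have hlt : ∀ X Y : Finset V, X ⊆ S → Y.Nonempty → X.card + Y.card = S.card → X ⊂ S := by
        intro X Y hX hY hXY
        refine lt_of_le_of_ne hX ?_
        rintro rfl
        have := Finset.card_pos.2 hY
        omega
      have h1 := ih A (hlt A B hA hBne hcard) hAne (ha.mono (by exact_mod_cast hA) le_rfl)
        (fun K hK' => hK K (hK'.trans hA))
      have h2 := ih B (hlt B A hB hAne (by omega)) hBne (ha.mono (by exact_mod_cast hB) le_rfl)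
        (fun K hK' => hK K (hK'.trans hB))
      have h3 := Nat.mul_le_mul_left (2 * k) (aNum_add_le hA hB hd hac)
      rw [Nat.mul_add] at h3
      omega

end Vale.Agent.P048
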