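import Vale.Agent.P048.Lists

/-!
Two disjoint paths between two sets in a two-connected vertex set.
-/

namespace Vale.Agent.P048

open Finset

section Whitney

variable {V : Type*} {G : SimpleGraph V} {S : Finset V}

lemma fan_step {u w v : V} {P Q R : List V} (hP : Pth G (S : Set V) u w P)
    (hQ : Pth G (S : Set V) u w Q) (hPQ : ∀ x ∈ P, x ∈ Q → x = u ∨ x = w) (hwv : G.Adj w v)
    (hR : Pth G ((S : Set V) \ {w}) u v R) (huv : u ≠ v) :
    ∃ P' Q', Pth G (S : Set V) u v P' ∧ Pth G (S : Set V) u v Q' ∧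
      ∀ x ∈ P', x ∈ Q' → x = u ∨ x = v := by
  have hRS : Pth G (S : Set V) u v R := hR.mono Set.sdiff_subset
  obtain ⟨R₁, z, R₂, e, hz, hR₂⟩ := exists_last (L := R) (p := fun x => x ∈ P ∨ x ∈ Q)
    ⟨u, hR.head_mem, Or.inl hP.head_mem⟩
  subst e
  wlog hzP : z ∈ P generalizing P Q with H
  · exact H hQ hP (fun x h1 h2 => hPQ x h2 h1) hz.symm (fun x hx h => hR₂ x hx h.symm)
      (hz.resolve_left hzP)
  obtain ⟨P₁, P₂, rfl⟩ := List.append_of_mem hzP
  have hzw : z ≠ w := fun e => (hR.mem z (by simp)).2 (by simpa using e)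
  have hwv' : v ≠ w := hwv.ne.symm
  have hvQ : v ∉ Q := by
    intro hv
    rcases List.eq_nil_or_concat R₂ with rfl | ⟨B, b, rfl⟩
    · have := hR.last
      simp at this
      subst this
      rcases hPQ z (by simp) hv with h | h
      · exact huv h.symm
      · exact hzw h
    · have := hR.last
      simp [List.getLast?_append, List.getLast?_cons, List.concat_eq_append] at this
      subst this
      exact hR₂ b (by simp) (Or.inr hv)
  refine ⟨P₁ ++ z :: R₂, Q ++ [v], hP.takeTo.glue hRS.dropTo ?_,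
    hQ.snoc hRS.right_mem hwv hvQ, ?_⟩
  · intro x hx hx'
    exact hR₂ x hx' (Or.inl (by simp [hx]))
  · intro x hx hx'
    simp at hx'
    rcases hx' with hx' | rfl
    · have hxP : x ∈ P₁ ++ [z] := by
        simp at hx ⊢
        rcases hx with h | h | h
        · exact Or.inl h
        · exact Or.inr h
        · exact absurd (Or.inr hx') (hR₂ x h)
      rcases hPQ x (by simp at hxP ⊢; tauto) hx' with h | h
      · exact Or.inl h
      · exfalso
        subst h
        rcases List.eq_nil_or_concat P₂ with rfl | ⟨B, b, rfl⟩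
        · have := hP.last
          simp at this
          exact hzw this
        · have := hP.last
          simp [List.getLast?_append, List.getLast?_cons, List.concat_eq_append] at this
          subst this
          have hnd := hP.nodup
          simp [List.nodup_append] at hnd hxP
          rcases hxP with h | h
          · exact (hnd.2.2 b h).2 b (Or.inr rfl) rfl
          · exact hzw h.symm
    · exact Or.inr rfl

/-- Two internally disjoint paths between two vertices of a two-connected set. -/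
lemma exists_two_paths [DecidableEq V] (hS : TwoConn G S) {u v : V} (hu : u ∈ S) (hv : v ∈ S)
    (huv : u ≠ v) :
    ∃ P Q, Pth G (S : Set V) u v P ∧ Pth G (S : Set V) u v Q ∧
      ∀ x ∈ P, x ∈ Q → x = u ∨ x = v := by
  obtain ⟨n, p, p0, pn, pinj, padj, pmem⟩ := hS.conn u (by exact_mod_cast hu) v
    (by exact_mod_cast hv)
  have key : ∀ i ≤ n, i ≠ 0 → ∃ P Q, Pth G (S : Set V) u (p i) P ∧ Pth G (S : Set V) u (p i) Q ∧
      ∀ x ∈ P, x ∈ Q → x = u ∨ x = p i := by
    intro i
    induction i with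
    | zero => intro _ h; exact absurd rfl h
    | succ i ih =>
      intro hi _
      have hadj := padj i (by omega)
      have hne : u ≠ p (i + 1) := fun e => by
        have := pinj 0 (Nat.zero_le n) (i + 1) hi (by rw [p0, e]); omega
      rcases Nat.eq_zero_or_pos i with rfl | hipos
      · rw [p0] at hadj
        have := pth_pair (S := (S : Set V)) (by exact_mod_cast hu) (pmem 1 hi) hadj
        exact ⟨_, _, this, this, fun x hx _ => by simpa using hx⟩
      · obtain ⟨P, Q, hP, hQ, hPQ⟩ := ih (by omega) (by omega)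
        have hiu : u ≠ p i := fun e => by
          have := pinj 0 (Nat.zero_le n) i (by omega) (by rw [p0, e]); omega
        obtain ⟨R, hR⟩ := (hS.conn_erase (p i) (by exact_mod_cast pmem i (by omega))).pth
          (u := u) (v := p (i + 1)) ⟨by exact_mod_cast hu, by simpa using hiu⟩
          ⟨pmem _ hi, by simpa using hadj.ne.symm⟩
        exact fan_step hP hQ hPQ hadj hR hne
  have hn : n ≠ 0 := fun e => huv (by rw [← p0, ← pn, e])
  have := key n le_rfl hn
  rwa [pn] at this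

end Whitney

variable {V : Type*} {G : SimpleGraph V} {S A B : Finset V}

/-- Add a vertex joined to `A` and a vertex joined to `B`. -/
def auxGraph (G : SimpleGraph V) (A B : Finset V) : SimpleGraph (V ⊕ Bool) :=
  SimpleGraph.fromRel fun a b =>
    (∃ x y, a = Sum.inl x ∧ b = Sum.inl y ∧ G.Adj x y) ∨
    (∃ x, a = Sum.inl x ∧ b = Sum.inr true ∧ x ∈ A) ∨
    (∃ x, a = Sum.inl x ∧ b = Sum.inr false ∧ x ∈ B)

lemma auxGraph_inl {x y : V} : (auxGraph G A B).Adj (Sum.inl x) (Sum.inl y) ↔ G.Adj x y := by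
  simp [auxGraph]
  constructor
  · rintro ⟨-, h | h⟩
    · exact h
    · exact h.symm
  · exact fun h => ⟨h.ne, Or.inl h⟩

lemma auxGraph_true {x : V} : (auxGraph G A B).Adj (Sum.inl x) (Sum.inr true) ↔ x ∈ A := by
  simp [auxGraph]

lemma auxGraph_false {x : V} : (auxGraph G A B).Adj (Sum.inl x) (Sum.inr false) ↔ x ∈ B := by
  simp [auxGraph]

lemma auxGraph_inr {a b : Bool} : ¬ (auxGraph G A B).Adj (Sum.inr a) (Sum.inr b) := by
  simp [auxGraph]

lemma pth_inl {T : Set V} {T' : Set (V ⊕ Bool)} {u v : V} {L : List V} (h : Pth G T u v L)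
    (hT : ∀ x ∈ T, Sum.inl x ∈ T') :
    Pth (auxGraph G A B) T' (Sum.inl u) (Sum.inl v) (L.map Sum.inl) := by
  refine ⟨by simp [h.head], by simp [h.last], h.nodup.map Sum.inl_injective, ?_, ?_⟩
  · rw [List.isChain_map]
    exact h.chain.imp fun a b hab => auxGraph_inl.2 hab
  · intro x hx
    simp at hx
    obtain ⟨y, hy, rfl⟩ := hx
    exact hT y (h.mem y hy)

lemma aux_conn {T : Set V} {T' : Set (V ⊕ Bool)} (hT : Conn G T)
    (hTT' : ∀ x, Sum.inl x ∈ T' ↔ x ∈ T) (hA : ∃ a ∈ A, a ∈ T) (hB : ∃ b ∈ B, b ∈ T) :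
    Conn (auxGraph G A B) T' := by
  obtain ⟨a, haA, ha⟩ := hA
  obtain ⟨b, hbB, hb⟩ := hB
  have root : ∀ z ∈ T', ∃ L, Pth (auxGraph G A B) T' z (Sum.inl a) L := by
    intro z hz
    rcases z with x | c
    · obtain ⟨L, hL⟩ := hT.pth ((hTT' x).1 hz) ha
      exact ⟨_, pth_inl hL fun y hy => (hTT' y).2 hy⟩
    · cases c
      · obtain ⟨L, hL⟩ := hT.pth hb ha
        obtain ⟨L', h', -⟩ := (pth_pair hz ((hTT' b).2 hb) (auxGraph_false.2 hbB).symm).trans
          (pth_inl (A := A) (B := B) hL fun y hy => (hTT' y).2 hy)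
        exact ⟨L', h'⟩
      · exact ⟨_, pth_pair hz ((hTT' a).2 ha) (auxGraph_true.2 haA).symm⟩
  classical
  intro x hx y hy
  obtain ⟨L₁, h₁⟩ := root x hx
  obtain ⟨L₂, h₂⟩ := root y hy
  obtain ⟨L, hL, -⟩ := h₁.trans h₂.reverse
  exact ⟨_, hL.toPathLen⟩

lemma trim {T : Set (V ⊕ Bool)} {P : List (V ⊕ Bool)}
    (hP : Pth (auxGraph G A B) T (Sum.inr true) (Sum.inr false) P) :
    ∃ (x : ℕ → V) (p : ℕ), (∀ i ≤ p, ∀ j ≤ p, x i = x j → i = j) ∧
      (∀ i < p, G.Adj (x i) (x (i + 1))) ∧ (∀ i ≤ p, Sum.inl (x i) ∈ P) ∧ x 0 ∈ A ∧ x p ∈ B ∧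
      ∀ i, 0 < i → i < p → x i ∉ A ∧ x i ∉ B := by
  classical
  have : DecidableEq (V ⊕ Bool) := Classical.decEq _
  have hP' : Pth (auxGraph G A B) {z | z ∈ P} (Sum.inr true) (Sum.inr false) P :=
    ⟨hP.head, hP.last, hP.nodup, hP.chain, fun x hx => hx⟩
  obtain ⟨f, f0, fn, finj, fadj, fmem⟩ := hP'.toPathLen
  set n := P.length - 1
  have hn : 2 ≤ n := by
    by_contra h
    interval_cases hn' : n
    · rw [f0] at fn; simp at fn
    · have := fadj 0 one_pos
      rw [f0, fn] at this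
      exact auxGraph_inr this
  have hinl : ∀ i, 0 < i → i < n → ∃ v, f i = Sum.inl v := by
    intro i h1 h2
    rcases h : f i with v | c
    · exact ⟨v, rfl⟩
    · cases c
      · have := finj i (by omega) n le_rfl (by rw [h, fn]); omega
      · have := finj i (by omega) 0 (Nat.zero_le n) (by rw [h, f0]); omega
  obtain ⟨v₁, hv₁⟩ := hinl 1 one_pos (by omega)
  let g : ℕ → V := fun i => (f i).elim id (fun _ => v₁)
  have hg : ∀ i, 0 < i → i < n → f i = Sum.inl (g i) := by
    intro i h1 h2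
    obtain ⟨v, hv⟩ := hinl i h1 h2
    simp [g, hv]
  have hg1 : g 1 ∈ A := by
    have := fadj 0 (by omega)
    rw [f0, hg 1 one_pos (by omega)] at this
    exact auxGraph_true.1 this.symm
  have hgn : g (n - 1) ∈ B := by
    have := fadj (n - 1) (by omega)
    rw [show n - 1 + 1 = n by omega, fn, hg (n - 1) (by omega) (by omega)] at this
    exact auxGraph_false.1 this
  let PA : ℕ → Prop := fun i => 1 ≤ i ∧ g i ∈ A
  set i₀ := Nat.findGreatest PA (n - 1)
  have hi₀ : PA i₀ := Nat.findGreatest_spec (P := PA) (m := 1) (by omega) ⟨le_rfl, hg1⟩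
  have hi₀n : i₀ ≤ n - 1 := Nat.findGreatest_le _
  have hex : ∃ j, i₀ ≤ j ∧ g j ∈ B := ⟨n - 1, hi₀n, hgn⟩
  set j₀ := Nat.find hex
  have hj₀ : i₀ ≤ j₀ ∧ g j₀ ∈ B := Nat.find_spec hex
  have hj₀n : j₀ ≤ n - 1 := Nat.find_min' hex ⟨hi₀n, hgn⟩
  refine ⟨fun k => g (i₀ + k), j₀ - i₀, ?_, ?_, ?_, by simpa using hi₀.2,
    by simpa [show i₀ + (j₀ - i₀) = j₀ by omega] using hj₀.2, ?_⟩
  · intro i hi j hj hij
    have h1 := hi₀.1
    have := finj (i₀ + i) (by omega) (i₀ + j) (by omega)
      (by rw [hg _ (by omega) (by omega), hg _ (by omega) (by omega)]; exact congrArg Sum.inl hij)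
    omega
  · intro i hi
    have h1 := hi₀.1
    have := fadj (i₀ + i) (by omega)
    rw [hg _ (by omega) (by omega), hg _ (by omega) (by omega)] at this
    exact auxGraph_inl.1 this
  · intro i hi
    have h1 := hi₀.1
    show Sum.inl (g (i₀ + i)) ∈ P
    rw [← hg _ (by omega) (by omega)]
    exact fmem (i₀ + i) (by omega)
  · intro i h1 h2
    refine ⟨fun h => ?_, fun h => ?_⟩
    · exact Nat.findGreatest_is_greatest (P := PA) (show i₀ < i₀ + i by omega) (by omega)
        ⟨by omega, h⟩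
    · exact Nat.find_min hex (show i₀ + i < j₀ by omega) ⟨by omega, h⟩

/-- Two disjoint paths between two disjoint sets. -/
theorem exists_linkage [DecidableEq V] (hS : TwoConn G S) (hA : A ⊆ S) (hB : B ⊆ S) (hdis : Disjoint A B)
    (hA2 : 2 ≤ A.card) (hB2 : 2 ≤ B.card) :
    ∃ x y p q, Linkage G (S : Set V) (A : Set V) (B : Set V) x y p q := by
  classical
  set S' : Finset (V ⊕ Bool) := S.disjSum Finset.univ with hS'
  obtain ⟨a₁, ha₁, a₂, ha₂, haa⟩ := Finset.one_lt_card.1 hA2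
  obtain ⟨b₁, hb₁, b₂, hb₂, hbb⟩ := Finset.one_lt_card.1 hB2
  have h2c : TwoConn (auxGraph G A B) S' := by
    refine ⟨by rw [hS', card_disjSum]; have := hS.three_le; omega, ?_, ?_⟩
    · exact aux_conn hS.conn (fun x => by simp [hS']) ⟨a₁, ha₁, by exact_mod_cast hA ha₁⟩
        ⟨b₁, hb₁, by exact_mod_cast hB hb₁⟩
    · intro z hz
      rcases z with v | c
      · have hv : v ∈ S := by simpa [hS'] using hz
        refine aux_conn (hS.conn_erase v hv) (fun x => by simp [hS']) ?_ ?_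
        · by_cases h : a₁ = v
          · exact ⟨a₂, ha₂, by simp [hA ha₂, ← h, haa.symm]⟩
          · exact ⟨a₁, ha₁, by simp [hA ha₁, h]⟩
        · by_cases h : b₁ = v
          · exact ⟨b₂, hb₂, by simp [hB hb₂, ← h, hbb.symm]⟩
          · exact ⟨b₁, hb₁, by simp [hB hb₁, h]⟩
      · exact aux_conn hS.conn (fun x => by simp [hS']) ⟨a₁, ha₁, by exact_mod_cast hA ha₁⟩
          ⟨b₁, hb₁, by exact_mod_cast hB hb₁⟩
  obtain ⟨P, Q, hP, hQ, hPQ⟩ := exists_two_paths h2c (u := Sum.inr true) (v := Sum.inr false)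
    (by simp [hS']) (by simp [hS']) (by simp)
  obtain ⟨x, p, xinj, xadj, xP, xA, xB, xint⟩ := trim hP
  obtain ⟨y, q, yinj, yadj, yQ, yA, yB, yint⟩ := trim hQ
  refine ⟨x, y, p, q, ⟨xinj, yinj, ?_, xadj, yadj, ?_, ?_, by exact_mod_cast xA,
    by exact_mod_cast yA, by exact_mod_cast xB, by exact_mod_cast yB, ?_, ?_⟩⟩
  · intro i hi j hj e
    rcases hPQ _ (xP i hi) (e ▸ yQ j hj) with h | h <;> simp at h
  · intro i hi
    simpa [hS'] using hP.mem _ (xP i hi)
  · intro i hi
    simpa [hS'] using hQ.mem _ (yQ i hi)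
  · intro i h1 h2
    exact ⟨by exact_mod_cast (xint i h1 h2).1, by exact_mod_cast (xint i h1 h2).2⟩
  · intro i h1 h2
    exact ⟨by exact_mod_cast (yint i h1 h2).1, by exact_mod_cast (yint i h1 h2).2⟩

end Vale.Agent.P048
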