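import Vale.Agent.P048.LayerBound

/-!
Two disjoint cliques joined by two disjoint paths.
-/

namespace Vale.Agent.P048

open Finset

variable {V : Type*} {G : SimpleGraph V}

/-- A clique gives paths of all small lengths between any two of its vertices. -/
lemma clique_path [DecidableEq V] : ∀ t : ℕ, 1 ≤ t → ∀ (K : Finset V), G.IsClique (K : Set V) →
    ∀ u ∈ K, ∀ v ∈ K, u ≠ v → t + 1 ≤ K.card → PathLen G (K : Set V) u v t := by
  intro t
  induction t with
  | zero => intro h; omega
  | succ t ih =>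
    intro _ K hK u hu v hv huv hcard
    rcases Nat.eq_zero_or_pos t with rfl | ht
    · exact pathLen_edge hu hv (hK hu hv huv)
    · obtain ⟨w, hw⟩ : ((K.erase u).erase v).Nonempty := by
        apply Finset.card_pos.1
        rw [Finset.card_erase_of_mem (by simp [hv, huv.symm]), Finset.card_erase_of_mem hu]
        omega
      simp at hw
      have P := ih ht (K.erase u) (hK.subset (by exact_mod_cast Finset.erase_subset u K)) w
        (by simp [hw]) v (by simp [hv, huv.symm]) hw.1 (by
          rw [Finset.card_erase_of_mem hu]; omega)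
      have E := pathLen_edge_pair (hK hu hw.2.2 (Ne.symm hw.2.1))
      rw [add_comm t 1]
      refine E.append' P ?_ ?_
      · intro x hx hx'
        rcases hx with rfl | hx
        · simp at hx'
        · exact hx
      · intro x hx
        rcases hx with (rfl | rfl) | hx
        · exact hu
        · exact hw.2.2
        · exact Finset.mem_of_mem_erase hx

/-- Follow `f` up to index `i`, then `g` from index `j`. -/
def spl (f g : ℕ → V) (i j : ℕ) : ℕ → V := fun t => if t ≤ i then f t else g (t - (i + 1) + j)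

section Spl

variable {f g : ℕ → V} {i j n : ℕ}

lemma spl_last (hjn : j ≤ n) : spl f g i j (i + 1 + (n - j)) = g n := by
  unfold spl
  have h1 : ¬ (i + 1 + (n - j) ≤ i) := by omega
  rw [if_neg h1]; congr 1; omega

lemma spl_mem (S : Set V) (hf : ∀ t ≤ i, f t ∈ S) (hg : ∀ t, j ≤ t → t ≤ n → g t ∈ S)
    (hjn : j ≤ n) : ∀ t ≤ i + 1 + (n - j), spl f g i j t ∈ S := by
  intro t ht
  unfold spl
  split_ifs with h
  · exact hf t h
  · exact hg _ (by omega) (by omega)

lemma spl_inj (hjn : j ≤ n) (hf : ∀ a ≤ i, ∀ b ≤ i, f a = f b → a = b)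
    (hg : ∀ a ≤ n, ∀ b ≤ n, g a = g b → a = b)
    (hfg : ∀ a ≤ i, ∀ b, j ≤ b → b ≤ n → f a ≠ g b) :
    ∀ a ≤ i + 1 + (n - j), ∀ b ≤ i + 1 + (n - j), spl f g i j a = spl f g i j b → a = b := by
  intro a ha b hb he
  unfold spl at he
  by_cases h1 : a ≤ i <;> by_cases h2 : b ≤ i <;> simp [h1, h2] at he
  · exact hf a h1 b h2 he
  · exact absurd he (hfg a h1 _ (by omega) (by omega))
  · exact absurd he.symm (hfg b h2 _ (by omega) (by omega))
  · have := hg _ (by omega) _ (by omega) he
    omega

lemma spl_adj (hjn : j ≤ n) (hf : ∀ a < i, G.Adj (f a) (f (a + 1)))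
    (hg : ∀ a < n, G.Adj (g a) (g (a + 1))) (hfg : G.Adj (f i) (g j)) :
    ∀ a < i + 1 + (n - j), G.Adj (spl f g i j a) (spl f g i j (a + 1)) := by
  intro a ha
  unfold spl
  by_cases h1 : a + 1 ≤ i
  · have h2 : a ≤ i := by omega
    simpa [h1, h2] using hf a (by omega)
  · by_cases h2 : a ≤ i
    · have : a = i := by omega
      subst this
      simpa using hfg
    · have e : a + 1 - (i + 1) + j = (a - (i + 1) + j) + 1 := by omega
      simp only [h1, h2, if_false, e]
      exact hg _ (by omega)

end Spl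

variable {S A B : Set V} {x y : ℕ → V} {p q : ℕ}

lemma Linkage.pos (hL : Linkage G S A B x y p q) (hd : Disjoint A B) : 1 ≤ p ∧ 1 ≤ q := by
  constructor
  · rcases Nat.eq_zero_or_pos p with rfl | h
    · exact (Set.disjoint_left.1 hd hL.xA hL.xB).elim
    · exact h
  · rcases Nat.eq_zero_or_pos q with rfl | h
    · exact (Set.disjoint_left.1 hd hL.yA hL.yB).elim
    · exact h

lemma Linkage.swap (hL : Linkage G S A B x y p q) : Linkage G S A B y x q p where
  xinj := hL.yinj
  yinj := hL.xinj
  disj := fun i hi j hj h => hL.disj j hj i hi h.symm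
  xadj := hL.yadj
  yadj := hL.xadj
  xmem := hL.ymem
  ymem := hL.xmem
  xA := hL.yA
  yA := hL.xA
  xB := hL.yB
  yB := hL.xB
  xint := hL.yint
  yint := hL.xint

lemma Linkage.rev (hL : Linkage G S A B x y p q) :
    Linkage G S B A (fun i => x (p - i)) (fun i => y (q - i)) p q where
  xinj := fun i hi j hj h => by
    have := hL.xinj (p - i) (by omega) (p - j) (by omega) h; omega
  yinj := fun i hi j hj h => by
    have := hL.yinj (q - i) (by omega) (q - j) (by omega) h; omega
  disj := fun i _ j _ => hL.disj (p - i) (by omega) (q - j) (by omega)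
  xadj := fun i hi => by
    have := hL.xadj (p - (i + 1)) (by omega)
    have e : p - (i + 1) + 1 = p - i := by omega
    rw [e] at this; exact this.symm
  yadj := fun i hi => by
    have := hL.yadj (q - (i + 1)) (by omega)
    have e : q - (i + 1) + 1 = q - i := by omega
    rw [e] at this; exact this.symm
  xmem := fun i _ => hL.xmem _ (by omega)
  ymem := fun i _ => hL.ymem _ (by omega)
  xA := by simpa using hL.xB
  yA := by simpa using hL.yB
  xB := by simpa using hL.xA
  yB := by simpa using hL.yA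
  xint := fun i h1 h2 => (hL.xint (p - i) (by omega) (by omega)).symm
  yint := fun i h1 h2 => (hL.yint (q - i) (by omega) (by omega)).symm

/-- Minimality of a linkage. -/
def MinLink (G : SimpleGraph V) (S A B : Set V) (W : ℕ) : Prop :=
  ∀ x y p q, Linkage G S A B x y p q → W ≤ p + q

lemma MinLink.rev {W : ℕ} (h : MinLink G S A B W) : MinLink G S B A W :=
  fun x y p q hL => h _ _ p q hL.rev

lemma Linkage.induced (hL : Linkage G S A B x y p q) (hmin : MinLink G S A B (p + q)) :
    ∀ i ≤ p, ∀ j ≤ p, i + 2 ≤ j → ¬ G.Adj (x i) (x j) := by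
  intro i hi j hj hij hadj
  have hlt : i < p := by omega
  have h := hmin (spl x x i j) y (i + 1 + (p - j)) q
    { xinj := spl_inj hj (fun a ha b hb => hL.xinj a (by omega) b (by omega)) hL.xinj
        (fun a ha b hb1 hb2 h => by have := hL.xinj a (by omega) b hb2 h; omega)
      yinj := hL.yinj
      disj := fun a ha b hb => spl_mem {v | v ≠ y b} (fun t ht => hL.disj t (by omega) b hb)
        (fun t _ ht => hL.disj t ht b hb) hj a ha
      xadj := spl_adj hj (fun a ha => hL.xadj a (by omega)) hL.xadj hadj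
      yadj := hL.yadj
      xmem := spl_mem S (fun t ht => hL.xmem t (by omega)) (fun t _ ht => hL.xmem t ht) hj
      ymem := hL.ymem
      xA := by simpa [spl] using hL.xA
      yA := hL.yA
      xB := by rw [spl_last hj]; exact hL.xB
      yB := hL.yB
      xint := by
        intro a h1 h2
        unfold spl
        split_ifs with h
        · exact hL.xint a h1 (by omega)
        · exact hL.xint _ (by omega) (by omega)
      yint := hL.yint }
  omega

lemma Linkage.crossing (hL : Linkage G S A B x y p q) (hmin : MinLink G S A B (p + q))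
    {i j i' j' : ℕ} (hi' : i' ≤ p) (hj : j ≤ q) (hii : i < i') (hjj : j' < j)
    (he : G.Adj (x i) (y j)) (he' : G.Adj (x i') (y j')) : i' + j ≤ i + j' + 2 := by
  have h := hmin (spl x y i j) (spl y x j' i') (i + 1 + (q - j)) (j' + 1 + (p - i'))
    { xinj := spl_inj hj (fun a ha b hb => hL.xinj a (by omega) b (by omega)) hL.yinj
        (fun a ha b _ hb => hL.disj a (by omega) b hb)
      yinj := spl_inj hi' (fun a ha b hb => hL.yinj a (by omega) b (by omega)) hL.xinj
        (fun a ha b _ hb h => hL.disj b hb a (by omega) h.symm)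
      disj := by
        intro a ha b hb
        unfold spl
        split_ifs with h1 h2 h2
        · exact hL.disj a (by omega) b (by omega)
        · intro h; have := hL.xinj a (by omega) _ (by omega) h; omega
        · intro h; have := hL.yinj _ (by omega) b (by omega) h; omega
        · exact fun h => hL.disj _ (by omega) _ (by omega) h.symm
      xadj := spl_adj hj (fun a ha => hL.xadj a (by omega)) hL.yadj he
      yadj := spl_adj hi' (fun a ha => hL.yadj a (by omega)) hL.xadj he'.symm
      xmem := spl_mem S (fun t ht => hL.xmem t (by omega)) (fun t _ ht => hL.ymem t ht) hj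
      ymem := spl_mem S (fun t ht => hL.ymem t (by omega)) (fun t _ ht => hL.xmem t ht) hi'
      xA := by simpa [spl] using hL.xA
      yA := by simpa [spl] using hL.yA
      xB := by rw [spl_last hj]; exact hL.yB
      yB := by rw [spl_last hi']; exact hL.xB
      xint := by
        intro a h1 h2
        unfold spl
        split_ifs with h
        · exact hL.xint a h1 (by omega)
        · exact hL.yint _ (by omega) (by omega)
      yint := by
        intro a h1 h2
        unfold spl
        split_ifs with h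
        · exact hL.yint a h1 (by omega)
        · exact hL.xint _ (by omega) (by omega) }
  omega

lemma Linkage.low_box (hL : Linkage G S A B x y p q) (hmin : MinLink G S A B (p + q)) (lo : ℕ) :
    ∃ xa ya : ℕ, 2 * (xa + ya) ≤ lo + 2 ∧
      ∀ i ≤ p, ∀ j ≤ q, G.Adj (x i) (y j) → i + j < lo → i < xa ∨ j < ya := by
  classical
  set E := ((Finset.range (p + 1)) ×ˢ (Finset.range (q + 1))).filter
    (fun e => G.Adj (x e.1) (y e.2) ∧ e.1 + e.2 < lo) with hE
  by_cases hne : E.Nonempty
  · obtain ⟨⟨i1, j⟩, h1, hmax1⟩ := E.exists_max_image (fun e => e.1) hne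
    obtain ⟨⟨i, j1⟩, h2, hmax2⟩ := E.exists_max_image (fun e => e.2) hne
    have hm : ∀ a ≤ p, ∀ b ≤ q, G.Adj (x a) (y b) → a + b < lo → a ≤ i1 ∧ b ≤ j1 := by
      intro a ha b hb hadj hlt
      have hab : ((a, b) : ℕ × ℕ) ∈ E := by simp [hE, hadj, hlt]; omega
      exact ⟨hmax1 _ hab, hmax2 _ hab⟩
    have hij : i ≤ i1 := hmax1 _ h2
    have hji : j ≤ j1 := hmax2 _ h1
    simp only [hE, Finset.mem_filter, Finset.mem_product, Finset.mem_range] at h1 h2
    have key : i1 + j1 ≤ lo := by
      rcases eq_or_lt_of_le hij with rfl | h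
      · omega
      rcases eq_or_lt_of_le hji with rfl | h'
      · omega
      have := hL.crossing hmin (i := i) (j := j1) (i' := i1) (j' := j) (by omega) (by omega) h h'
        h2.2.1 h1.2.1
      omega
    by_cases hle : i1 ≤ j1
    · exact ⟨i1 + 1, 0, by omega,
        fun a ha b hb h h' => Or.inl (Nat.lt_succ_of_le (hm a ha b hb h h').1)⟩
    · exact ⟨0, j1 + 1, by omega,
        fun a ha b hb h h' => Or.inr (Nat.lt_succ_of_le (hm a ha b hb h h').2)⟩
  · refine ⟨0, 0, by omega, fun a ha b hb hadj hlt => absurd ⟨(a, b), ?_⟩ hne⟩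
    simp [hE, hadj, hlt]; omega

lemma Linkage.near_edge {k m : ℕ} [DecidableEq V] {A : Finset V}
    (hL : Linkage G S (A : Set V) B x y p q) (hd : Disjoint (A : Set V) B)
    (hA : G.IsClique (A : Set V)) (hAc : A.card = k + 1) (hnc : ¬ HasCyc G m) {i j : ℕ}
    (hi : i ≤ p) (hj : j ≤ q) (he : G.Adj (x i) (y j)) (h1 : m ≤ i + j + 1 + k)
    (h2 : i + j + 2 ≤ m) (hm : 3 ≤ m) : False := by
  have hxy : x 0 ≠ y 0 := hL.disj 0 (Nat.zero_le _) 0 (Nat.zero_le _)
  have hAin : ∀ t ≤ p, x t ∈ A → t = 0 := by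
    intro t ht htA
    rcases Nat.eq_zero_or_pos t with h | h
    · exact h
    rcases eq_or_lt_of_le ht with rfl | h'
    · exact absurd hL.xB (Set.disjoint_left.1 hd htA)
    · exact absurd htA (hL.xint t h h').1
  have hAiny : ∀ t ≤ q, y t ∈ A → t = 0 := by
    intro t ht htA
    rcases Nat.eq_zero_or_pos t with h | h
    · exact h
    rcases eq_or_lt_of_le ht with rfl | h'
    · exact absurd hL.yB (Set.disjoint_left.1 hd htA)
    · exact absurd htA (hL.yint t h h').1
  have PX := (pathLen_prefix (G := G) (S := {v | ∃ t ≤ i, x t = v}) (p := x) hi hL.xinj hL.xadj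
    (fun t ht => ⟨t, ht, rfl⟩)).reverse
  have PY := pathLen_prefix (G := G) (S := {v | ∃ t ≤ j, y t = v}) (p := y) hj hL.yinj hL.yadj
    (fun t ht => ⟨t, ht, rfl⟩)
  have PK := clique_path (m - 1 - i - j) (by omega) A hA (x 0) hL.xA (y 0) hL.yA hxy (by omega)
  have Q := (PX.append PK (by
    rintro v ⟨t, ht, rfl⟩ hv
    rw [hAin t (by omega) hv])).append PY (by
    rintro v hv ⟨t, ht, rfl⟩
    rcases hv with ⟨t', ht', hv⟩ | hv
    · exact absurd hv (hL.disj t' (by omega) t (by omega))
    · rw [hAiny t (by omega) hv])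
  have := Q.close (pathLen_edge_pair he.symm) (by omega) le_rfl (by omega) (by
    intro v _ hv
    rcases hv with hv | hv
    · exact Or.inr hv
    · exact Or.inl hv)
  apply hnc
  have e : i + (m - 1 - i - j) + j + 1 = m := by omega
  rwa [e] at this

/-- A shortest linkage of two cliques: it is long, and its paths have no edge in the middle. -/
lemma linked_window [DecidableEq V] {A B : Finset V} {k m a : ℕ}
    (hex : ∃ x y p q, Linkage G S (A : Set V) (B : Set V) x y p q)
    (hd : Disjoint (A : Set V) (B : Set V)) (hA : G.IsClique (A : Set V))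
    (hB : G.IsClique (B : Set V)) (hAc : A.card = k + 1) (hBc : B.card = k + 1)
    (hnc : ¬ HasCyc G m) (ha : IndBound G S a) (hkm : m ≤ 2 * k + 2) (hkm' : 2 * k + 1 ≤ m)
    (ham : 2 * a + 2 ≤ m) :
    ∃ x y p q, Linkage G S (A : Set V) (B : Set V) x y p q ∧
      MinLink G S (A : Set V) (B : Set V) (p + q) ∧
      (∀ i ≤ p, ∀ j ≤ p, i + 2 ≤ j → ¬ G.Adj (x i) (x j)) ∧
      (∀ i ≤ q, ∀ j ≤ q, i + 2 ≤ j → ¬ G.Adj (y i) (y j)) ∧
      p + 1 ≤ 2 * a ∧ q + 1 ≤ 2 * a ∧ m ≤ p + q + 1 ∧
      ∀ i ≤ p, ∀ j ≤ q, G.Adj (x i) (y j) → i + j + m < p + q + 2 ∨ m < i + j + 2 := by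
  classical
  have hex' : ∃ W x y p q, Linkage G S (A : Set V) (B : Set V) x y p q ∧ p + q = W := by
    obtain ⟨x, y, p, q, h⟩ := hex
    exact ⟨_, x, y, p, q, h, rfl⟩
  obtain ⟨x, y, p, q, hL, hW⟩ := Nat.find_spec hex'
  have hmin : MinLink G S (A : Set V) (B : Set V) (p + q) := fun x' y' p' q' h => by
    rw [hW]; exact Nat.find_le ⟨x', y', p', q', h, rfl⟩
  obtain ⟨hp, hq⟩ := hL.pos hd
  have indx := hL.induced hmin
  have indy := hL.swap.induced (fun x' y' p' q' h => by
    have := hmin _ _ _ _ h; omega)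
  have hp2 := ha.induced_path hL.xinj hL.xmem indx
  have hq2 := ha.induced_path hL.yinj hL.ymem indy
  -- short connections close up directly
  have hW1 : m ≤ p + q + 1 := by
    by_contra hlt
    have PX := pathLen_prefix (G := G) (S := {v | ∃ t ≤ p, x t = v}) (p := x) le_rfl hL.xinj
      hL.xadj (fun t ht => ⟨t, ht, rfl⟩)
    have PY := (pathLen_prefix (G := G) (S := {v | ∃ t ≤ q, y t = v}) (p := y) le_rfl hL.yinj
      hL.yadj (fun t ht => ⟨t, ht, rfl⟩)).reverse
    set t1 := min k (m - (p + q) - 1) with ht1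
    have PB := clique_path t1 (by omega) B hB (x p) hL.xB (y q) hL.yB
      (hL.disj p le_rfl q le_rfl) (by omega)
    have PA := clique_path (m - (p + q) - t1) (by omega) A hA (y 0) hL.yA (x 0) hL.xA
      (fun h => hL.disj 0 (Nat.zero_le _) 0 (Nat.zero_le _) h.symm) (by omega)
    have hxA : ∀ t ≤ p, x t ∈ A → t = 0 := by
      intro t ht htA
      rcases Nat.eq_zero_or_pos t with h | h
      · exact h
      rcases eq_or_lt_of_le ht with rfl | h'
      · exact absurd hL.xB (Set.disjoint_left.1 hd htA)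
      · exact absurd htA (hL.xint t h h').1
    have hxB : ∀ t ≤ p, x t ∈ B → t = p := by
      intro t ht htB
      rcases eq_or_lt_of_le ht with h | h'
      · exact h
      rcases Nat.eq_zero_or_pos t with rfl | h
      · exact absurd htB (Set.disjoint_left.1 hd hL.xA)
      · exact absurd htB (hL.xint t h h').2
    have hyA : ∀ t ≤ q, y t ∈ A → t = 0 := by
      intro t ht htA
      rcases Nat.eq_zero_or_pos t with h | h
      · exact h
      rcases eq_or_lt_of_le ht with rfl | h'
      · exact absurd hL.yB (Set.disjoint_left.1 hd htA)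
      · exact absurd htA (hL.yint t h h').1
    have hyB : ∀ t ≤ q, y t ∈ B → t = q := by
      intro t ht htB
      rcases eq_or_lt_of_le ht with h | h'
      · exact h
      rcases Nat.eq_zero_or_pos t with rfl | h
      · exact absurd htB (Set.disjoint_left.1 hd hL.yA)
      · exact absurd htB (hL.yint t h h').2
    have Q := (PX.append PB (by
      rintro v ⟨t, ht, rfl⟩ hv
      rw [hxB t ht hv])).append PY (by
      rintro v hv ⟨t, ht, rfl⟩
      rcases hv with ⟨t', ht', hv⟩ | hv
      · exact absurd hv (hL.disj t' ht' t ht)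
      · rw [hyB t ht hv])
    have := Q.close PA (by omega) (by omega) (by omega) (by
      intro v hv hvA
      rcases hv with (⟨t, ht, rfl⟩ | hv) | ⟨t, ht, rfl⟩
      · exact Or.inl (by rw [hxA t ht hvA])
      · exact absurd hv (Set.disjoint_left.1 hd hvA)
      · exact Or.inr (by rw [hyA t ht hvA]))
    apply hnc
    have e : p + t1 + q + (m - (p + q) - t1) = m := by omega
    rwa [e] at this
  -- no edge between the paths with index sum in the middle window
  have hmid : ∀ i ≤ p, ∀ j ≤ q, G.Adj (x i) (y j) → i + j + m < p + q + 2 ∨ m < i + j + 2 := by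
    intro i hi j hj he
    by_contra hno
    push Not at hno
    by_cases h : m ≤ i + j + 1 + k
    · exact hL.near_edge hd hA hAc hnc hi hj he h hno.2 (by omega)
    · have e1 : p - (p - i) = i := by omega
      have e2 : q - (q - j) = j := by omega
      exact hL.rev.near_edge (i := p - i) (j := q - j) hd.symm hB hBc hnc (by omega) (by omega)
        (by simpa [e1, e2] using he) (by omega) (by omega) (by omega)
  exact ⟨x, y, p, q, hL, hmin, indx, indy, hp2, hq2, hW1, hmid⟩

/-- A low box with slack, or an exact crossing square at the corner `(r, r)`. -/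
lemma Linkage.low_corner (hL : Linkage G S A B x y p q) (hmin : MinLink G S A B (p + q))
    (lo : ℕ) (hlo : 1 ≤ lo) :
    (∃ xa ya : ℕ, 2 * (xa + ya) ≤ lo + 1 ∧
      ∀ i ≤ p, ∀ j ≤ q, G.Adj (x i) (y j) → i + j < lo → i < xa ∨ j < ya) ∨
    ∃ r, lo = 2 * r ∧ ∀ i ≤ p, ∀ j ≤ q, G.Adj (x i) (y j) → i + j < lo →
      (i < r ∧ j < r) ∨ (i = r ∧ j + 1 = r) ∨ (i + 1 = r ∧ j = r) := by
  classical
  set E := ((Finset.range (p + 1)) ×ˢ (Finset.range (q + 1))).filter
    (fun e => G.Adj (x e.1) (y e.2) ∧ e.1 + e.2 < lo) with hE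
  have hmem : ∀ a ≤ p, ∀ b ≤ q, G.Adj (x a) (y b) → a + b < lo → ((a, b) : ℕ × ℕ) ∈ E := by
    intro a ha b hb hadj hlt
    simp [hE, hadj, hlt]; omega
  by_cases hne : E.Nonempty
  · obtain ⟨⟨i1, j⟩, h1, hmax1⟩ := E.exists_max_image (fun e => e.1) hne
    obtain ⟨⟨i, j1⟩, h2, hmax2⟩ := E.exists_max_image (fun e => e.2) hne
    have hij : i ≤ i1 := hmax1 _ h2
    have hji : j ≤ j1 := hmax2 _ h1
    have hbox : ∀ a ≤ p, ∀ b ≤ q, G.Adj (x a) (y b) → a + b < lo → a ≤ i1 ∧ b ≤ j1 :=
      fun a ha b hb h h' => ⟨hmax1 _ (hmem a ha b hb h h'), hmax2 _ (hmem a ha b hb h h')⟩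
    simp only [hE, Finset.mem_filter, Finset.mem_product, Finset.mem_range] at h1 h2
    have key : i1 + j1 ≤ lo := by
      rcases eq_or_lt_of_le hij with rfl | h
      · omega
      rcases eq_or_lt_of_le hji with rfl | h'
      · omega
      have := hL.crossing hmin (i := i) (j := j1) (i' := i1) (j' := j) (by omega) (by omega) h h'
        h2.2.1 h1.2.1
      omega
    by_cases hx : 2 * (i1 + 1) ≤ lo + 1
    · exact Or.inl ⟨i1 + 1, 0, by omega,
        fun a ha b hb h h' => Or.inl (Nat.lt_succ_of_le (hbox a ha b hb h h').1)⟩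
    by_cases hy : 2 * (j1 + 1) ≤ lo + 1
    · exact Or.inl ⟨0, j1 + 1, by omega,
        fun a ha b hb h h' => Or.inr (Nat.lt_succ_of_le (hbox a ha b hb h h').2)⟩
    refine Or.inr ⟨i1, by omega, fun a ha b hb h h' => ?_⟩
    obtain ⟨ha', hb'⟩ := hbox a ha b hb h h'
    rcases eq_or_lt_of_le ha' with ea | ea
    · have := hL.crossing hmin (i := i) (j := j1) (i' := a) (j' := b) ha (by omega) (by omega)
        (by omega) h2.2.1 h
      omega
    · rcases eq_or_lt_of_le hb' with eb | eb
      · have := hL.crossing hmin (i := a) (j := b) (i' := i1) (j' := j) (by omega) hb ea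
          (by omega) h h1.2.1
        omega
      · omega
  · exact Or.inl ⟨0, 0, by omega, fun a ha b hb hadj hlt => absurd ⟨_, hmem a ha b hb hadj hlt⟩ hne⟩

/-- Two anticomplete arithmetic progressions of step two on induced paths. -/
lemma Linkage.two_progressions [DecidableEq V] (hL : Linkage G S A B x y p q) {a : ℕ}
    (ha : IndBound G S a) (indx : ∀ i ≤ p, ∀ j ≤ p, i + 2 ≤ j → ¬ G.Adj (x i) (x j))
    (indy : ∀ i ≤ q, ∀ j ≤ q, i + 2 ≤ j → ¬ G.Adj (y i) (y j)) (x0 cx y0 cy : ℕ)
    (hcx : ∀ t < cx, x0 + 2 * t ≤ p) (hcy : ∀ t < cy, y0 + 2 * t ≤ q)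
    (hsep : ∀ s < cx, ∀ t < cy, ¬ G.Adj (x (x0 + 2 * s)) (y (y0 + 2 * t))) : cx + cy ≤ a := by
  set X := (Finset.range cx).image (fun t => x (x0 + 2 * t)) with hX
  set Y := (Finset.range cy).image (fun t => y (y0 + 2 * t)) with hY
  have hXc : X.card = cx := by
    rw [hX, Finset.card_image_of_injOn, Finset.card_range]
    intro s hs t ht h
    simp at hs ht
    have := hL.xinj _ (hcx s hs) _ (hcx t ht) h
    omega
  have hYc : Y.card = cy := by
    rw [hY, Finset.card_image_of_injOn, Finset.card_range]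
    intro s hs t ht h
    simp at hs ht
    have := hL.yinj _ (hcy s hs) _ (hcy t ht) h
    omega
  have hXY : Disjoint X Y := by
    rw [Finset.disjoint_left]
    intro v hv hv'
    simp [hX] at hv
    simp [hY] at hv'
    obtain ⟨s, hs, rfl⟩ := hv
    obtain ⟨t, ht, h⟩ := hv'
    exact hL.disj _ (hcx s hs) _ (hcy t ht) h.symm
  have hsub : ((X ∪ Y : Finset V) : Set V) ⊆ S := by
    intro v hv
    simp [hX, hY] at hv
    rcases hv with ⟨s, hs, rfl⟩ | ⟨t, ht, rfl⟩
    · exact hL.xmem _ (hcx s hs)
    · exact hL.ymem _ (hcy t ht)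
  have hind : G.IsIndepSet ((X ∪ Y : Finset V) : Set V) := by
    apply indep_union
    · intro u hu v hv hne hadj
      simp [hX] at hu hv
      obtain ⟨s, hs, rfl⟩ := hu
      obtain ⟨t, ht, rfl⟩ := hv
      rcases lt_trichotomy s t with h | h | h
      · exact indx _ (hcx s hs) _ (hcx t ht) (by omega) hadj
      · exact hne (by rw [h])
      · exact indx _ (hcx t ht) _ (hcx s hs) (by omega) hadj.symm
    · intro u hu v hv hne hadj
      simp [hY] at hu hv
      obtain ⟨s, hs, rfl⟩ := hu
      obtain ⟨t, ht, rfl⟩ := hv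
      rcases lt_trichotomy s t with h | h | h
      · exact indy _ (hcy s hs) _ (hcy t ht) (by omega) hadj
      · exact hne (by rw [h])
      · exact indy _ (hcy t ht) _ (hcy s hs) (by omega) hadj.symm
    · intro u hu v hv hadj
      simp [hX] at hu
      simp [hY] at hv
      obtain ⟨s, hs, rfl⟩ := hu
      obtain ⟨t, ht, rfl⟩ := hv
      exact hsep _ hs _ ht hadj
  have := ha (X ∪ Y) hsub hind
  rw [Finset.card_union_of_disjoint hXY, hXc, hYc] at this
  exact this

/-- The count when both corners are exact squares. -/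
lemma Linkage.square_count [DecidableEq V] (hL : Linkage G S A B x y p q) {a r : ℕ}
    (ha : IndBound G S a) (indx : ∀ i ≤ p, ∀ j ≤ p, i + 2 ≤ j → ¬ G.Adj (x i) (x j))
    (indy : ∀ i ≤ q, ∀ j ≤ q, i + 2 ≤ j → ¬ G.Adj (y i) (y j))
    (hW : p + q = 2 * a + 2 * r) (hr : r ≤ a) (hpq : p ≤ q)
    (hedge : ∀ i ≤ p, ∀ j ≤ q, G.Adj (x i) (y j) →
      (i < r ∧ j < r) ∨ (i = r ∧ j + 1 = r) ∨ (i + 1 = r ∧ j = r) ∨ q ≤ j + r) : False := by
  rcases Nat.even_or_odd p with ⟨t, ht⟩ | ⟨t, ht⟩
  · have := hL.two_progressions ha indx indy 0 (t + 1) (r + 1) (a - t)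
      (fun s hs => by omega) (fun s hs => by omega) (fun u hu v hv hadj => by
        have := hedge _ (by omega) _ (by omega) hadj
        omega)
    omega
  · have := hL.two_progressions ha indx indy (r % 2) (t + 1) r (a - t)
      (fun s hs => by omega) (fun s hs => by omega) (fun u hu v hv hadj => by
        have := hedge _ (by omega) _ (by omega) hadj
        omega)
    omega

/-- Two disjoint cliques on `k + 1` vertices joined by two disjoint paths force a cycle of
length `m`. -/
theorem linked_cliques [DecidableEq V] {A B : Finset V} {k m a : ℕ}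
    (hex : ∃ x y p q, Linkage G S (A : Set V) (B : Set V) x y p q)
    (hd : Disjoint (A : Set V) (B : Set V)) (hA : G.IsClique (A : Set V))
    (hB : G.IsClique (B : Set V)) (hAc : A.card = k + 1) (hBc : B.card = k + 1)
    (hnc : ¬ HasCyc G m) (ha : IndBound G S a) (hkm : m ≤ 2 * k + 2) (hkm' : 2 * k + 1 ≤ m)
    (ham : 2 * a + 2 ≤ m) : False := by
  classical
  obtain ⟨x, y, p, q, hL, hmin, indx, indy, hp2, hq2, hW1, hmid⟩ :=
    linked_window hex hd hA hB hAc hBc hnc ha hkm hkm' ham
  have slack : ∀ xa ya xb yb : ℕ,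
      2 * (xa + ya) + 2 * (xb + yb) + m + m ≤ 2 * (p + q) + 7 + (m - 2 * a - 2) →
      (∀ i ≤ p, ∀ j ≤ q, G.Adj (x i) (y j) → i + j < p + q + 2 - m → i < xa ∨ j < ya) →
      (∀ i ≤ p, ∀ j ≤ q, G.Adj (x (p - i)) (y (q - j)) → i + j < p + q + 2 - m →
        i < xb ∨ j < yb) → False := by
    intro xa ya xb yb hsum hlow hhigh
    have := hL.two_progressions ha indx indy xa ((p + 2 - xa - xb) / 2) ya ((q + 2 - ya - yb) / 2)
      (fun s hs => by omega) (fun s hs => by omega) (fun s hs t ht he => by
        rcases hmid _ (by omega) _ (by omega) he with h | h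
        · rcases hlow _ (by omega) _ (by omega) he (by omega) with h' | h' <;> omega
        · have e1 : p - (p - (xa + 2 * s)) = xa + 2 * s := by omega
          have e2 : q - (q - (ya + 2 * t)) = ya + 2 * t := by omega
          rcases hhigh (p - (xa + 2 * s)) (by omega) (q - (ya + 2 * t)) (by omega)
            (by rw [e1, e2]; exact he) (by omega) with h' | h' <;> omega)
    omega
  obtain ⟨xa₀, ya₀, hs₀, hlow₀⟩ := hL.low_box hmin (p + q + 2 - m)
  obtain ⟨xb₀, yb₀, hs₀', hhigh₀⟩ := hL.rev.low_box hmin.rev (p + q + 2 - m)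
  rcases eq_or_lt_of_le ham with heq | hlt
  · rcases hL.low_corner hmin (p + q + 2 - m) (by omega) with ⟨xa, ya, hs, hlow⟩ | ⟨r, hr, hlowr⟩
    · exact slack xa ya xb₀ yb₀ (by omega) hlow hhigh₀
    rcases hL.rev.low_corner hmin.rev (p + q + 2 - m) (by omega) with
      ⟨xb, yb, hs, hhigh⟩ | ⟨r', hr', hhighr⟩
    · exact slack xa₀ ya₀ xb yb (by omega) hlow₀ hhigh
    obtain rfl : r' = r := by omega
    have hedge : ∀ i ≤ p, ∀ j ≤ q, G.Adj (x i) (y j) →
        (i < r' ∧ j < r') ∨ (i = r' ∧ j + 1 = r') ∨ (i + 1 = r' ∧ j = r') ∨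
          (p ≤ i + r' ∧ q ≤ j + r') := by
      intro i hi j hj he
      rcases hmid i hi j hj he with h | h
      · have := hlowr i hi j hj he (by omega)
        omega
      · have e1 : p - (p - i) = i := by omega
        have e2 : q - (q - j) = j := by omega
        have := hhighr (p - i) (by omega) (q - j) (by omega) (by simpa [e1, e2] using he)
          (by omega)
        omega
    rcases le_total p q with hpq | hpq
    · exact hL.square_count ha indx indy (r := r') (by omega) (by omega) hpq
        (fun i hi j hj he => by have := hedge i hi j hj he; omega)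
    · exact hL.swap.square_count ha indy indx (r := r') (by omega) (by omega) hpq
        (fun j hj i hi he => by have := hedge i hi j hj he.symm; omega)
  · exact slack xa₀ ya₀ xb₀ yb₀ (by omega) hlow₀ hhigh₀

end Vale.Agent.P048
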